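import Mathlib
import Crest.Prelude.Def_MultiMarginal
import Crest.Agent.R82.Monge

set_option autoImplicit false
set_option linter.unusedSectionVars false

namespace Crest.Agent.R130

open MeasureTheory Filter Topology Set
open scoped ENNReal ContDiff
open Crest.AnalysisR.OT Crest.Agent.R82

variable {E : Type*} [NormedAddCommGroup E] [MeasurableSpace E] [BorelSpace E]
  [SecondCountableTopology E] [CompleteSpace E]

theorem continuous_pairCost (s : ℝ) : Continuous fun p : E × E => pairCost s p.1 p.2 :=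
  ENNReal.continuous_rpow_const.comp (ENNReal.continuous_ofReal.comp (by fun_prop))

theorem continuous_tripleCost (s : ℝ) : Continuous (tripleCost (E := E) s) := by
  have h := continuous_pairCost (E := E) s
  have h1 : Continuous fun p : E × E × E => pairCost s p.1 p.2.1 :=
    h.comp (f := fun p : E × E × E => (p.1, p.2.1)) (by fun_prop)
  have h2 : Continuous fun p : E × E × E => pairCost s p.1 p.2.2 :=
    h.comp (f := fun p : E × E × E => (p.1, p.2.2)) (by fun_prop)
  have h3 : Continuous fun p : E × E × E => pairCost s p.2.1 p.2.2 :=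
    h.comp (f := fun p : E × E × E => (p.2.1, p.2.2)) (by fun_prop)
  exact (h1.add h2).add h3

theorem exists_lift (μ : Measure E) [IsFiniteMeasure μ] {K : Set E} (hK : IsCompact K)
    (hne : K.Nonempty) (hKae : ∀ᵐ x ∂μ, x ∈ K) (l : E → ℝ) (hl : Measurable l)
    (h0 : ∀ c, μ (l ⁻¹' {c}) = 0) (Γ : Measure (E × E × E)) (hΓ : Γ.map (fun p => p.1) = μ)
    {δ : ℝ} (hδ : 0 < δ) :
    ∃ S : E → E × E × E, Measurable S ∧ μ.map S = Γ ∧ ∀ᵐ x ∂μ, ‖x - (S x).1‖ ≤ δ := by
  classical
  obtain ⟨x0, hx0⟩ := hne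
  have : Nonempty (E × E × E) := ⟨(x0, x0, x0)⟩
  obtain ⟨t, P, hP, hPt, htK, hPd⟩ := exists_net hK ⟨x0, hx0⟩ (δ := δ / 2) (by positivity)
  have m1 : Measurable fun p : E × E × E => p.1 := measurable_fst
  have hmeas : ∀ c, MeasurableSet (P ⁻¹' {c}) := fun c => hP (measurableSet_singleton c)
  have hP1 : Measurable fun p : E × E × E => P p.1 := hP.comp measurable_fst
  have hex : ∀ c, ∃ S : E → E × E × E, Measurable S ∧ (μ.restrict (P ⁻¹' {c})).map S =
      Γ.restrict ((fun p : E × E × E => P p.1) ⁻¹' {c}) := by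
    intro c
    refine exists_map_of_mass_eq _ _ ?_ l hl fun a => ?_
    · rw [Measure.restrict_apply_univ, Measure.restrict_apply_univ, ← hΓ,
        Measure.map_apply m1 (hmeas c)]
      rfl
    · exact le_antisymm ((Measure.restrict_apply_le _ _).trans (h0 a).le) bot_le
  choose Sc hSc hScm using hex
  let S : E → E × E × E := fun x => ∑ c ∈ t, (P ⁻¹' {c}).indicator (Sc c) x
  have hS : Measurable S := Finset.measurable_sum _ fun c _ => (hSc c).indicator (hmeas c)
  have hSeq : ∀ x, S x = Sc (P x) x := by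
    intro x
    simp only [S]
    rw [Finset.sum_eq_single (P x)]
    · exact Set.indicator_of_mem (by simp) _
    · intro c _ hc
      exact Set.indicator_of_notMem (by simpa using Ne.symm hc) _
    · intro h; exact absurd (hPt x) h
  have e1 : ∀ c, (μ.restrict (P ⁻¹' {c})).map S =
      Γ.restrict ((fun p : E × E × E => P p.1) ⁻¹' {c}) := by
    intro c
    rw [← hScm]
    refine Measure.map_congr ((ae_restrict_mem (hmeas c)).mono fun x hx => ?_)
    have hx' : P x = c := hx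
    simp [hSeq, hx']
  have hmap : μ.map S = Γ := by
    conv_lhs => rw [← sum_restrict_fiber μ t P hP hPt]
    conv_rhs => rw [← sum_restrict_fiber Γ t (fun p : E × E × E => P p.1) hP1 (fun p => hPt p.1)]
    rw [Measure.map_finset_sum hS.aemeasurable]
    exact Finset.sum_congr rfl fun c _ => e1 c
  refine ⟨S, hS, hmap, ?_⟩
  have a1 : ∀ᵐ x ∂μ, (S x).1 ∈ K := by
    have h1 : μ.map (fun x => (S x).1) = μ := by
      have := Measure.map_map (μ := μ) m1 hS
      rw [hmap, hΓ] at this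
      exact this.symm
    have h2 := hKae
    rw [← h1] at h2
    exact ae_of_ae_map hS.fst.aemeasurable h2
  have a2 : ∀ᵐ x ∂μ, P (S x).1 = P x := by
    rw [← sum_restrict_fiber μ t P hP hPt, ← Measure.sum_coe_finset, Measure.ae_sum_iff]
    intro c
    have h1 : ∀ᵐ p ∂(Γ.restrict ((fun p : E × E × E => P p.1) ⁻¹' {(c : E)})), P p.1 = c :=
      ae_restrict_mem (hP1 (measurableSet_singleton _))
    rw [← e1] at h1
    filter_upwards [ae_of_ae_map hS.aemeasurable h1, ae_restrict_mem (hmeas c)] with x h2 h3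
    rw [h2]; exact (show P x = c from h3).symm
  filter_upwards [hKae, a1, a2] with x h1 h2 h3
  have b1 := hPd x h1
  have b2 := hPd _ h2
  rw [h3] at b2
  rw [← dist_eq_norm]
  linarith [dist_triangle_right x (S x).1 (P x)]

theorem pairCost_perturb {s : ℝ} (hs : 0 < s) {r t : ℝ} (ht0 : 0 < t) (ht1 : t < 1)
    {x x' y : E} (hr : r ≤ ‖x - y‖) (hx : ‖x' - x‖ ≤ (1 - t) * r) :
    pairCost s x' y ≤ ENNReal.ofReal t ^ (-s) * pairCost s x y := by
  unfold pairCost
  rw [← ENNReal.mul_rpow_of_ne_top ENNReal.ofReal_ne_top ENNReal.ofReal_ne_top,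
    ← ENNReal.ofReal_mul ht0.le, ENNReal.rpow_neg, ENNReal.rpow_neg, ENNReal.inv_le_inv]
  refine ENNReal.rpow_le_rpow (ENNReal.ofReal_le_ofReal ?_) hs.le
  have h1 : ‖x - y‖ ≤ ‖x' - y‖ + ‖x' - x‖ := by
    calc ‖x - y‖ = ‖(x' - y) - (x' - x)‖ := by congr 1; abel
      _ ≤ _ := norm_sub_le _ _
  nlinarith

theorem exists_sep {s : ℝ} (hs : 0 < s) {M : ℝ≥0∞} (hM : M ≠ ⊤) :
    ∃ r : ℝ, 0 < r ∧ ∀ x y : E, pairCost s x y ≤ M → r ≤ ‖x - y‖ := by
  have h1 : ContinuousAt (fun a : ℝ => ENNReal.ofReal a ^ (-s)) 0 :=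
    (ENNReal.continuous_rpow_const.comp ENNReal.continuous_ofReal).continuousAt
  have h2 : M < ENNReal.ofReal 0 ^ (-s) := by
    rw [ENNReal.ofReal_zero, ENNReal.zero_rpow_of_neg (by linarith)]
    exact hM.lt_top
  obtain ⟨r, hr, h⟩ := Metric.eventually_nhds_iff.mp (h1.eventually (lt_mem_nhds h2))
  refine ⟨r, hr, fun x y hxy => ?_⟩
  by_contra hlt
  have := h (y := ‖x - y‖) (by simpa using hlt)
  exact absurd hxy (not_le.mpr this)

theorem approx (μ : Measure E) [IsFiniteMeasure μ] {K : Set E} (hK : IsCompact K)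
    (hne : K.Nonempty) (hKae : ∀ᵐ x ∂μ, x ∈ K) (l : E → ℝ) (hl : Measurable l)
    (h0 : ∀ c, μ (l ⁻¹' {c}) = 0) (Γ : Measure (E × E × E)) (hΓ : IsCoupling₃ μ Γ)
    {s : ℝ} (hs : 0 < s) {M : ℝ≥0∞} (hM : M ≠ ⊤) (hb : ∀ᵐ p ∂Γ, tripleCost s p ≤ M)
    (hfin : ∫⁻ p, tripleCost s p ∂Γ ≠ ⊤) {ε : ℝ≥0∞} (hε : 0 < ε) :
    ∃ T₂ T₃ : E → E, Measurable T₂ ∧ Measurable T₃ ∧ μ.map T₂ = μ ∧ μ.map T₃ = μ ∧
      ∫⁻ x, tripleCost s (x, T₂ x, T₃ x) ∂μ < ∫⁻ p, tripleCost s p ∂Γ + ε := by
  obtain ⟨c1, c2, c3⟩ := hΓ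
  obtain ⟨r, hr, hsep⟩ := exists_sep (E := E) hs hM
  set V := ∫⁻ p, tripleCost s p ∂Γ with hV
  have h1 : ContinuousAt (fun a : ℝ => ENNReal.ofReal a ^ (-s) * V) 1 :=
    ((ENNReal.continuous_mul_const hfin).comp
      (ENNReal.continuous_rpow_const.comp ENNReal.continuous_ofReal)).continuousAt
  have h2 : ENNReal.ofReal 1 ^ (-s) * V < V + ε := by
    rw [ENNReal.ofReal_one, ENNReal.one_rpow, one_mul]
    exact ENNReal.lt_add_right hfin hε.ne'
  have h3 : ∀ᶠ t in 𝓝[<] (1 : ℝ), ENNReal.ofReal t ^ (-s) * V < V + ε :=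
    nhdsWithin_le_nhds (h1.eventually (gt_mem_nhds h2))
  obtain ⟨t, ht, ht0, ht1⟩ := (h3.and (Ioo_mem_nhdsLT (show (0 : ℝ) < 1 by norm_num))).exists
  obtain ⟨S, hS, hmap, hclose⟩ := exists_lift μ hK hne hKae l hl h0 Γ c1
    (δ := (1 - t) * r) (mul_pos (by linarith) hr)
  have m2 : Measurable fun p : E × E × E => p.2.1 := measurable_snd.fst
  have m3 : Measurable fun p : E × E × E => p.2.2 := measurable_snd.snd
  refine ⟨fun x => (S x).2.1, fun x => (S x).2.2, hS.snd.fst, hS.snd.snd, ?_, ?_, ?_⟩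
  · have := Measure.map_map (μ := μ) m2 hS
    rw [hmap, c2] at this
    exact this.symm
  · have := Measure.map_map (μ := μ) m3 hS
    rw [hmap, c3] at this
    exact this.symm
  · refine lt_of_le_of_lt ?_ ht
    have hcm := (continuous_tripleCost (E := E) s).measurable
    have hcS : Measurable fun x => tripleCost s (S x) := hcm.comp hS
    rw [hV, ← hmap, lintegral_map hcm hS, ← lintegral_const_mul _ hcS]
    refine lintegral_mono_ae ?_
    rw [← hmap] at hb
    filter_upwards [ae_of_ae_map hS.aemeasurable hb, hclose] with x b1 b2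
    have hge : 1 ≤ ENNReal.ofReal t ^ (-s) :=
      ENNReal.one_le_rpow_of_pos_of_le_one_of_neg (ENNReal.ofReal_pos.mpr ht0)
        (ENNReal.ofReal_le_one.mpr ht1.le) (by linarith)
    simp only [tripleCost, mul_add] at b1 ⊢
    refine add_le_add (add_le_add (pairCost_perturb hs ht0 ht1 (hsep _ _ ?_) b2)
      (pairCost_perturb hs ht0 ht1 (hsep _ _ ?_) b2)) ?_
    · exact (le_self_add.trans le_self_add).trans b1
    · exact (le_add_self.trans le_self_add).trans b1
    · exact le_mul_of_one_le_left' hge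

end Crest.Agent.R130
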