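import Mathlib

set_option autoImplicit false
set_option linter.unusedSectionVars false

namespace Crest.Agent.R130

open MeasureTheory Filter Topology Set
open scoped ENNReal ContDiff

section Diffeo

variable {F : Type*} [NormedAddCommGroup F] [NormedSpace ℝ F] [FiniteDimensional ℝ F]

theorem contDiff_det : ContDiff ℝ ∞ fun A : F →L[ℝ] F => A.det := by
  classical
  let b := Module.finBasis ℝ F
  have h : (fun A : F →L[ℝ] F => A.det) =
      fun A : F →L[ℝ] F => ∑ σ : Equiv.Perm (Fin (Module.finrank ℝ F)),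
        ((Equiv.Perm.sign σ : ℤ) : ℝ) * ∏ i, b.repr (A (b i)) (σ i) := by
    funext A
    change LinearMap.det (A : F →ₗ[ℝ] F) = _
    rw [← LinearMap.det_toMatrix b, Matrix.det_apply']
    simp only [LinearMap.toMatrix_apply, ContinuousLinearMap.coe_coe]
  rw [h]
  refine ContDiff.sum fun σ _ => contDiff_const.mul (contDiff_prod fun i _ => ?_)
  let L : (F →L[ℝ] F) →ₗ[ℝ] ℝ :=
    { toFun := fun A => b.repr (A (b i)) (σ i)
      map_add' := by intro A B; simp
      map_smul' := by intro c A; simp }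
  exact (LinearMap.toContinuousLinearMap L).contDiff

theorem det_ne_zero_of_inj {A : F →L[ℝ] F} (h : ∀ v, A v = 0 → v = 0) : A.det ≠ 0 := by
  intro h0
  have h1 : LinearMap.det (A : F →ₗ[ℝ] F) = 0 := h0
  rw [LinearMap.det_eq_zero_iff_ker_ne_bot] at h1
  apply h1
  rw [LinearMap.ker_eq_bot']
  exact h

/-- Smooth inverse function theorem on an open set. -/
theorem exists_localDiffeo {f : F → F} {U : Set F} (hU : IsOpen U) (hf : ContDiffOn ℝ ∞ f U)
    {a : F} (ha : a ∈ U) (hinj : ∀ v, fderiv ℝ f a v = 0 → v = 0) :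
    ∃ Φ : OpenPartialHomeomorph F F, (Φ : F → F) = f ∧ a ∈ Φ.source ∧ Φ.source ⊆ U ∧
      ContDiffOn ℝ ∞ Φ.symm Φ.target ∧ ∀ x ∈ Φ.target, (fderiv ℝ Φ.symm x).det ≠ 0 := by
  have : CompleteSpace F := FiniteDimensional.complete ℝ F
  have hAt : ∀ x ∈ U, ContDiffAt ℝ ∞ f x := fun x hx => hf.contDiffAt (hU.mem_nhds hx)
  have hD : ∀ x ∈ U, HasFDerivAt f (fderiv ℝ f x) x := fun x hx =>
    ((hAt x hx).differentiableAt (by simp)).hasFDerivAt
  have hc : ContinuousOn (fun x => (fderiv ℝ f x).det) U :=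
    ContinuousLinearMap.continuous_det.comp_continuousOn
      (hf.continuousOn_fderiv_of_isOpen hU (by simp))
  let V : Set F := U ∩ (fun x => (fderiv ℝ f x).det) ⁻¹' {0}ᶜ
  have hV : IsOpen V := hc.isOpen_inter_preimage hU isOpen_compl_singleton
  have haV : a ∈ V := ⟨ha, det_ne_zero_of_inj hinj⟩
  have hE : ∀ x ∈ V, ∃ e : F ≃L[ℝ] F, HasFDerivAt f (e : F →L[ℝ] F) x := by
    intro x hx
    have h0 : (fderiv ℝ f x).det ≠ 0 := hx.2
    refine ⟨(fderiv ℝ f x).toContinuousLinearEquivOfDetNeZero h0, ?_⟩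
    rw [ContinuousLinearMap.coe_toContinuousLinearEquivOfDetNeZero]
    exact hD x hx.1
  obtain ⟨e, he⟩ := hE a haV
  let Φ0 := (hAt a ha).toOpenPartialHomeomorph f he (by simp)
  let Φ := Φ0.restrOpen V hV
  have hΦ : (Φ : F → F) = f := rfl
  have hs : Φ.source ⊆ V := fun x hx => hx.2
  refine ⟨Φ, hΦ, ⟨(hAt a ha).mem_toOpenPartialHomeomorph_source he (by simp), haV⟩,
    fun x hx => (hs hx).1, fun x hx => ?_, fun x hx => ?_⟩
  · have h1 := hs (Φ.map_target hx)
    obtain ⟨e', he'⟩ := hE _ h1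
    exact (Φ.contDiffAt_symm hx he' (hAt _ h1.1)).contDiffWithinAt
  · have h1 := hs (Φ.map_target hx)
    obtain ⟨e', he'⟩ := hE _ h1
    rw [(Φ.hasFDerivAt_symm hx he').fderiv]
    exact det_ne_zero_of_inj (fun v hv => by simpa using hv)

end Diffeo

section Push

variable {E : Type*} [NormedAddCommGroup E] [NormedSpace ℝ E] [FiniteDimensional ℝ E]
  [MeasurableSpace E] [BorelSpace E]

/-- Push-forward of a squared smooth density under a local diffeomorphism. -/
theorem exists_push (m : Measure E) [m.IsAddHaarMeasure] (Φ : OpenPartialHomeomorph E E)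
    (h1 : ContDiffOn ℝ ∞ Φ.symm Φ.target) (h2 : ∀ x ∈ Φ.target, (fderiv ℝ Φ.symm x).det ≠ 0)
    {η : E → ℝ} (hη : ContDiff ℝ ∞ η) (hη0 : ∀ y, 0 ≤ η y) {K : Set E} (hK : IsCompact K)
    (hηK : ∀ y, η y ≠ 0 → y ∈ K) (hKs : K ⊆ Φ.source) {f : E → E} (hf : Measurable f)
    (hfΦ : ∀ y ∈ K, f y = Φ y) :
    ∃ η' : E → ℝ, ContDiff ℝ ∞ η' ∧ (∀ x, 0 ≤ η' x) ∧ (∀ x, η' x ≠ 0 → x ∈ f '' K) ∧
      IsCompact (f '' K) ∧
      m.withDensity (fun x => ENNReal.ofReal (η' x ^ 2)) =
        (m.withDensity (fun y => ENNReal.ofReal (η y ^ 2))).map f := by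
  classical
  have himg : f '' K = Φ '' K := Set.image_congr hfΦ
  have hKc : IsCompact (Φ '' K) := hK.image_of_continuousOn (Φ.continuousOn.mono hKs)
  let g : E → ℝ := fun x => η (Φ.symm x) * Real.sqrt |(fderiv ℝ Φ.symm x).det|
  let η' : E → ℝ := Φ.target.indicator g
  have hsupp : ∀ x, η' x ≠ 0 → x ∈ Φ '' K := by
    intro x hx
    by_cases hxt : x ∈ Φ.target
    · have : g x ≠ 0 := by simpa [η', Set.indicator_of_mem hxt] using hx
      have h3 : η (Φ.symm x) ≠ 0 := left_ne_zero_of_mul this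
      exact ⟨Φ.symm x, hηK _ h3, Φ.right_inv hxt⟩
    · exact absurd (Set.indicator_of_notMem hxt g) hx
  have hg : ContDiffOn ℝ ∞ g Φ.target := by
    refine (hη.comp_contDiffOn h1).mul ?_
    have h3 : ContDiffOn ℝ ∞ (fun x => (fderiv ℝ Φ.symm x).det) Φ.target :=
      contDiff_det.comp_contDiffOn (h1.fderiv_of_isOpen Φ.open_target (by simp))
    refine ContDiffOn.sqrt (h3.abs h2) fun x hx => ?_
    exact abs_ne_zero.mpr (h2 x hx)
  have hη' : ContDiff ℝ ∞ η' := by
    rw [contDiff_iff_contDiffAt]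
    intro x
    by_cases hxt : x ∈ Φ.target
    · refine (hg.contDiffAt (Φ.open_target.mem_nhds hxt)).congr_of_eventuallyEq ?_
      filter_upwards [Φ.open_target.mem_nhds hxt] with y hy
      exact Set.indicator_of_mem hy g
    · have hx : x ∈ (Φ '' K)ᶜ := by
        rintro ⟨y, hy, rfl⟩
        exact hxt (Φ.map_source (hKs hy))
      refine (contDiffAt_const (c := (0 : ℝ))).congr_of_eventuallyEq ?_
      filter_upwards [hKc.isClosed.isOpen_compl.mem_nhds hx] with y hy
      by_contra h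
      exact hy (hsupp y h)
  refine ⟨η', hη', fun x => Set.indicator_nonneg (fun y _ => mul_nonneg (hη0 _) (Real.sqrt_nonneg _)) x,
    fun x hx => himg ▸ hsupp x hx, himg ▸ hKc, ?_⟩
  ext T hT
  rw [Measure.map_apply hf hT, withDensity_apply _ hT, withDensity_apply _ (hf hT),
    ← lintegral_indicator hT, ← lintegral_indicator (hf hT)]
  have hmt := Φ.open_target.measurableSet
  have hms := Φ.open_source.measurableSet
  have key := lintegral_image_eq_lintegral_abs_det_fderiv_mul m hmt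
    (f := Φ.symm) (f' := fun x => fderiv ℝ Φ.symm x)
    (fun x hx => ((h1.contDiffAt (Φ.open_target.mem_nhds hx)).differentiableAt
      (by simp)).hasFDerivAt.hasFDerivWithinAt) Φ.symm.injOn
    ((f ⁻¹' T).indicator fun y => ENNReal.ofReal (η y ^ 2))
  rw [Φ.symm_image_target_eq_source, ← lintegral_indicator hms, ← lintegral_indicator hmt] at key
  have e1 : Φ.source.indicator ((f ⁻¹' T).indicator fun y => ENNReal.ofReal (η y ^ 2)) =
      (f ⁻¹' T).indicator fun y => ENNReal.ofReal (η y ^ 2) := by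
    funext y
    by_cases hy : y ∈ Φ.source
    · exact Set.indicator_of_mem hy _
    · rw [Set.indicator_of_notMem hy]
      have : η y = 0 := by
        by_contra h
        exact hy (hKs (hηK y h))
      by_cases hy' : y ∈ f ⁻¹' T
      · rw [Set.indicator_of_mem hy', this]; simp
      · rw [Set.indicator_of_notMem hy']
  rw [e1] at key
  rw [key]
  congr 1
  funext x
  by_cases hxt : x ∈ Φ.target
  · rw [Set.indicator_of_mem hxt]
    have e2 : η' x = g x := Set.indicator_of_mem hxt g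
    by_cases h0 : η (Φ.symm x) = 0
    · have e3 : η' x = 0 := by rw [e2]; simp [g, h0]
      have e4 : (f ⁻¹' T).indicator (fun y => ENNReal.ofReal (η y ^ 2)) (Φ.symm x) = 0 := by
        by_cases hy' : Φ.symm x ∈ f ⁻¹' T
        · rw [Set.indicator_of_mem hy', h0]; simp
        · rw [Set.indicator_of_notMem hy']
      rw [e4, mul_zero]
      by_cases hy' : x ∈ T
      · rw [Set.indicator_of_mem hy', e3]; simp
      · rw [Set.indicator_of_notMem hy']
    · have e3 : f (Φ.symm x) = x := by rw [hfΦ _ (hηK _ h0), Φ.right_inv hxt]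
      by_cases hy' : x ∈ T
      · have : Φ.symm x ∈ f ⁻¹' T := by rw [Set.mem_preimage, e3]; exact hy'
        rw [Set.indicator_of_mem hy', Set.indicator_of_mem this, e2,
          ← ENNReal.ofReal_mul (abs_nonneg _)]
        congr 1
        simp only [g, mul_pow, Real.sq_sqrt (abs_nonneg _)]
        ring
      · have : Φ.symm x ∉ f ⁻¹' T := by rw [Set.mem_preimage, e3]; exact hy'
        rw [Set.indicator_of_notMem hy', Set.indicator_of_notMem this, mul_zero]
  · rw [Set.indicator_of_notMem hxt]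
    have e2 : η' x = 0 := Set.indicator_of_notMem hxt g
    by_cases hy' : x ∈ T
    · rw [Set.indicator_of_mem hy', e2]; simp
    · rw [Set.indicator_of_notMem hy']

end Push

end Crest.Agent.R130
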