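import Mathlib
import Crest.Agent.R130.Diffeo

set_option autoImplicit false
set_option linter.unusedSectionVars false

namespace Crest.Agent.R130

open Filter Topology Set
open scoped ContDiff RealInnerProductSpace

variable {E : Type*} [NormedAddCommGroup E] [InnerProductSpace ℝ E] [FiniteDimensional ℝ E]

/-- The real pair potential. -/
noncomputable def wR (s : ℝ) (v : E) : ℝ := (‖v‖ ^ 2) ^ (-s / 2)

/-- Its gradient. -/
noncomputable def gR (s : ℝ) (v : E) : E := (-s * (‖v‖ ^ 2) ^ (-s / 2 - 1)) • v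

/-- The Hessian at a unit vector. -/
noncomputable def MM (s : ℝ) (e : E) : E →L[ℝ] E :=
  (-s) • ContinuousLinearMap.id ℝ E + (s * (s + 2)) • (innerSL ℝ e).smulRight e

theorem MM_apply (s : ℝ) (e h : E) : MM s e h = (-s) • h + (s * (s + 2) * ⟪e, h⟫) • e := by
  simp [MM, smul_smul]

theorem hasFDerivAt_pw (p : ℝ) {v : E} (hv : v ≠ 0) :
    HasFDerivAt (fun v : E => (‖v‖ ^ 2) ^ p) ((2 * p * (‖v‖ ^ 2) ^ (p - 1)) • innerSL ℝ v) v := by
  have h1 := (hasStrictFDerivAt_norm_sq v).hasFDerivAt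
  have h2 := h1.rpow_const (p := p) (Or.inl (by simpa using hv))
  convert h2 using 1
  ext h
  simp
  ring

theorem hasFDerivAt_wR (s : ℝ) {v : E} (hv : v ≠ 0) :
    HasFDerivAt (wR s) (innerSL ℝ (gR s v)) v := by
  refine (hasFDerivAt_pw (-s / 2) hv).congr_fderiv ?_
  ext h
  simp [gR]
  ring

theorem contDiffAt_gR (s : ℝ) {v : E} (hv : v ≠ 0) : ContDiffAt ℝ ∞ (gR s) v := by
  have h1 : ContDiffAt ℝ ∞ (fun v : E => (‖v‖ ^ 2) ^ (-s / 2 - 1)) v :=
    (contDiff_norm_sq ℝ).contDiffAt.rpow_const_of_ne (by simpa using hv)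
  exact (contDiffAt_const.mul h1).smul contDiffAt_id

theorem hasFDerivAt_gR (s : ℝ) {e : E} (he : ‖e‖ = 1) {t : ℝ} (ht : t ≠ 0) :
    HasFDerivAt (gR s) (((t ^ 2) ^ (-s / 2 - 1)) • MM s e) (t • e) := by
  have hv : t • e ≠ 0 := smul_ne_zero ht (by rintro rfl; simp at he)
  have h1 := ((hasFDerivAt_pw (-s / 2 - 1) hv).const_mul (-s)).smul (hasFDerivAt_id (t • e))
  have hn : ‖t • e‖ ^ 2 = t ^ 2 := by rw [norm_smul, he, mul_one, Real.norm_eq_abs, sq_abs]
  refine h1.congr_fderiv ?_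
  ext h
  have ht2 : (0 : ℝ) < t ^ 2 := by positivity
  have e1 : (t ^ 2) ^ (-s / 2 - 1 - 1) = (t ^ 2) ^ (-s / 2 - 1) / t ^ 2 :=
    Real.rpow_sub_one ht2.ne' _
  simp only [smul_apply, MM_apply, hn, add_apply, id,
    ContinuousLinearMap.id_apply, ContinuousLinearMap.smulRight_apply, innerSL_apply_apply,
    inner_smul_left, smul_eq_mul, smul_add, smul_smul, e1, conj_trivial]
  congr 1
  · congr 1; ring
  · congr 1; field_simp; ring

theorem MM_quad {s : ℝ} (hs : 0 < s) (e h : E) : -s * ‖h‖ ^ 2 ≤ ⟪MM s e h, h⟫ := by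
  rw [MM_apply, inner_add_left, inner_smul_left, inner_smul_left, real_inner_self_eq_norm_sq]
  simp only [conj_trivial]
  have : 0 ≤ s * (s + 2) * (⟪e, h⟫ * ⟪e, h⟫) := mul_nonneg (by positivity) (mul_self_nonneg _)
  nlinarith

theorem MM_eig (s : ℝ) {e : E} (he : ‖e‖ = 1) {α β : ℝ} (h1 : β - α * s ≠ 0)
    (h2 : β + α * (s * (s + 1)) ≠ 0) {h : E} (hh : α • MM s e h + β • h = 0) : h = 0 := by
  have e1 := congrArg (fun v => ⟪e, v⟫) hh
  simp only [MM_apply, inner_add_right, inner_smul_right, real_inner_self_eq_norm_sq, he,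
    inner_zero_right] at e1
  have e2 : ⟪e, h⟫ = 0 := by
    apply mul_left_cancel₀ h2
    linarith
  rw [MM_apply, e2, mul_zero, zero_smul, add_zero, smul_smul, ← add_smul] at hh
  refine (smul_eq_zero.mp hh).resolve_left ?_
  intro h3
  apply h1
  linarith

/-- The first-order conditions. -/
noncomputable def GG (s : ℝ) (e : E) (p : E × E × E) : E × E :=
  (gR s (p.1 - p.2.1) + gR s (p.1 - p.2.2) - (gR s (-e) + gR s ((-2 : ℝ) • e)) +
      (4 * s) • (p.1 + e),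
    -gR s (p.1 - p.2.1) + gR s (p.2.1 - p.2.2) + (4 * s) • p.2.1)

/-- The open set of triples of distinct points. -/
def Dist (E : Type*) [NormedAddCommGroup E] : Set (E × E × E) :=
  {p | p.1 - p.2.1 ≠ 0 ∧ p.1 - p.2.2 ≠ 0 ∧ p.2.1 - p.2.2 ≠ 0}

theorem isOpen_Dist : IsOpen (Dist E) := by
  refine IsOpen.inter (isOpen_ne_fun (by fun_prop) continuous_const)
    (IsOpen.inter (isOpen_ne_fun (by fun_prop) continuous_const)
      (isOpen_ne_fun (by fun_prop) continuous_const))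

theorem base_mem_Dist {e : E} (he : ‖e‖ = 1) : ((-e, 0, e) : E × E × E) ∈ Dist E := by
  have h0 : e ≠ 0 := by rintro rfl; simp at he
  refine ⟨by simpa using h0, ?_, by simpa using h0⟩
  have : (-e - e : E) = (-2 : ℝ) • e := by module
  simp only [this]
  exact smul_ne_zero (by norm_num) h0

theorem contDiffAt_GG (s : ℝ) (e : E) {p : E × E × E} (hp : p ∈ Dist E) :
    ContDiffAt ℝ ∞ (GG s e) p := by
  have h1 : ContDiffAt ℝ ∞ (fun p : E × E × E => gR s (p.1 - p.2.1)) p :=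
    (contDiffAt_gR s hp.1).comp p (f := fun p : E × E × E => p.1 - p.2.1) (by fun_prop)
  have h2 : ContDiffAt ℝ ∞ (fun p : E × E × E => gR s (p.1 - p.2.2)) p :=
    (contDiffAt_gR s hp.2.1).comp p (f := fun p : E × E × E => p.1 - p.2.2) (by fun_prop)
  have h3 : ContDiffAt ℝ ∞ (fun p : E × E × E => gR s (p.2.1 - p.2.2)) p :=
    (contDiffAt_gR s hp.2.2).comp p (f := fun p : E × E × E => p.2.1 - p.2.2) (by fun_prop)
  exact (((h1.add h2).sub contDiffAt_const).add (by fun_prop)).prodMk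
    ((h1.neg.add h3).add (by fun_prop))

theorem GG_base (s : ℝ) (e : E) : GG s e (-e, 0, e) = 0 := by
  have : (-e - e : E) = (-2 : ℝ) • e := by module
  simp [GG, this]

theorem fderiv_GG (s : ℝ) {e : E} (he : ‖e‖ = 1) (a b c : E) :
    fderiv ℝ (GG s e) (-e, 0, e) (a, b, c) =
      (MM s e (a - b) + (4 : ℝ) ^ (-s / 2 - 1) • MM s e (a - c) + (4 * s) • a,
        -MM s e (a - b) + MM s e (b - c) + (4 * s) • b) := by
  have g1 : HasFDerivAt (gR s) (MM s e) (-e) := by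
    simpa using hasFDerivAt_gR s he (t := -1) (by norm_num)
  have g2 : HasFDerivAt (gR s) ((4 : ℝ) ^ (-s / 2 - 1) • MM s e) (-e - e) := by
    have h := hasFDerivAt_gR s he (t := -2) (by norm_num)
    have e1 : (-e - e : E) = (-2 : ℝ) • e := by module
    have e2 : ((-2 : ℝ) ^ 2) = 4 := by norm_num
    rwa [← e1, e2] at h
  let p : E × E × E := (-e, 0, e)
  have f1 : HasFDerivAt (fun p : E × E × E => p.1) (ContinuousLinearMap.fst ℝ E (E × E)) p :=
    hasFDerivAt_fst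
  have f2 : HasFDerivAt (fun p : E × E × E => p.2.1)
      ((ContinuousLinearMap.fst ℝ E E).comp (ContinuousLinearMap.snd ℝ E (E × E))) p :=
    hasFDerivAt_fst.comp p hasFDerivAt_snd
  have f3 : HasFDerivAt (fun p : E × E × E => p.2.2)
      ((ContinuousLinearMap.snd ℝ E E).comp (ContinuousLinearMap.snd ℝ E (E × E))) p :=
    hasFDerivAt_snd.comp p hasFDerivAt_snd
  have h1 := HasFDerivAt.comp p (g := gR s) (by simpa [p] using g1) (f1.sub f2)
  have h2 := HasFDerivAt.comp p (g := gR s) (by simpa [p] using g2) (f1.sub f3)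
  have h3 := HasFDerivAt.comp p (g := gR s) (by simpa [p] using g1) (f2.sub f3)
  have h4 := ((((h1.add h2).sub_const (gR s (-e) + gR s ((-2 : ℝ) • e))).add
    ((f1.add_const e).const_smul (4 * s))).prodMk ((h1.neg.add h3).add (f2.const_smul (4 * s))))
  have h5 : fderiv ℝ (GG s e) p = _ := h4.fderiv
  rw [h5]
  simp [smul_sub]

theorem theta_bounds {s : ℝ} (hs : 0 < s) :
    0 < (4 : ℝ) ^ (-s / 2 - 1) ∧ (4 : ℝ) ^ (-s / 2 - 1) < 1 / 4 := by
  refine ⟨by positivity, ?_⟩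
  have : (4 : ℝ) ^ (-s / 2 - 1) < 4 ^ (-1 : ℝ) :=
    Real.rpow_lt_rpow_of_exponent_lt (by norm_num) (by linarith)
  rwa [Real.rpow_neg_one, ← one_div] at this

theorem DG_inj_b {s : ℝ} (hs : 0 < s) {e : E} (he : ‖e‖ = 1) {a c : E}
    (h : fderiv ℝ (GG s e) (-e, 0, e) (a, 0, c) = 0) : a = 0 ∧ c = 0 := by
  obtain ⟨t0, t1⟩ := theta_bounds hs
  rw [fderiv_GG s he, Prod.mk_eq_zero] at h
  obtain ⟨h1, h2⟩ := h
  have e1 : a + c = 0 := by
    refine MM_eig s he (α := -1) (β := 0) (by linarith) (by nlinarith) ?_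
    rw [← h2]
    simp only [map_add, map_sub, map_zero]
    module
  have e2 : c = -a := by rw [← add_eq_zero_iff_eq_neg, add_comm]; exact e1
  have e3 : a = 0 := by
    refine MM_eig s he (α := 1 + 2 * (4 : ℝ) ^ (-s / 2 - 1)) (β := 4 * s) (by nlinarith)
      (by positivity) ?_
    rw [← h1, e2]
    simp only [map_sub, map_zero, map_neg]
    module
  exact ⟨e3, by rw [e2, e3, neg_zero]⟩

theorem DG_inj_a {s : ℝ} (hs : 0 < s) {e : E} (he : ‖e‖ = 1) {b c : E}
    (h : fderiv ℝ (GG s e) (-e, 0, e) (0, b, c) = 0) : b = 0 := by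
  obtain ⟨t0, t1⟩ := theta_bounds hs
  rw [fderiv_GG s he, Prod.mk_eq_zero] at h
  obtain ⟨h1, h2⟩ := h
  have e1 : b + (4 : ℝ) ^ (-s / 2 - 1) • c = 0 := by
    refine MM_eig s he (α := -1) (β := 0) (by linarith) (by nlinarith) ?_
    rw [← h1]
    simp only [map_add, map_sub, map_zero, map_smul]
    module
  have e2 : b = -((4 : ℝ) ^ (-s / 2 - 1) • c) := by rw [← add_eq_zero_iff_eq_neg]; exact e1
  have e3 : c = 0 := by
    refine MM_eig s he (α := -(1 + 2 * (4 : ℝ) ^ (-s / 2 - 1)))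
      (β := -(4 * s * (4 : ℝ) ^ (-s / 2 - 1))) (by nlinarith) ?_ ?_
    · have : 0 < 4 * s * (4 : ℝ) ^ (-s / 2 - 1) +
          (1 + 2 * (4 : ℝ) ^ (-s / 2 - 1)) * (s * (s + 1)) := by positivity
      linarith
    · rw [← h2, e2]
      simp only [map_sub, map_zero, map_neg, map_smul]
      module
  rw [e2, e3, smul_zero, neg_zero]

theorem DG_pos {s : ℝ} (hs : 0 < s) {e : E} (he : ‖e‖ = 1) (a b : E) :
    s * (‖a‖ ^ 2 + ‖b‖ ^ 2) ≤ ⟪(fderiv ℝ (GG s e) (-e, 0, e) (a, b, 0)).1, a⟫ +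
      ⟪(fderiv ℝ (GG s e) (-e, 0, e) (a, b, 0)).2, b⟫ := by
  obtain ⟨t0, t1⟩ := theta_bounds hs
  rw [fderiv_GG s he]
  have q1 := MM_quad hs e (a - b)
  have q2 := MM_quad hs e a
  have q3 := MM_quad hs e b
  have q4 : ‖a - b‖ ^ 2 ≤ 2 * ‖a‖ ^ 2 + 2 * ‖b‖ ^ 2 := by
    have := norm_sub_le a b
    nlinarith [norm_nonneg (a - b), sq_nonneg (‖a‖ - ‖b‖)]
  rw [inner_sub_right] at q1
  simp only [sub_zero, inner_add_left, inner_smul_left, inner_neg_left, conj_trivial,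
    real_inner_self_eq_norm_sq]
  have q5 := mul_le_mul_of_nonneg_left q2 t0.le
  have q6 : 0 ≤ s * ‖a‖ ^ 2 := by positivity
  nlinarith

end Crest.Agent.R130
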