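import Mathlib
import Crest.Agent.R130.Local

set_option autoImplicit false
set_option linter.unusedSectionVars false

namespace Crest.Agent.R130

open Filter Topology Set
open scoped ContDiff RealInnerProductSpace

variable {E : Type*} [NormedAddCommGroup E] [InnerProductSpace ℝ E] [FiniteDimensional ℝ E]

/-- The real three-point cost. -/
noncomputable def cR (s : ℝ) (x y z : E) : ℝ := wR s (x - y) + wR s (x - z) + wR s (y - z)

/-- The potential near `-e`. -/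
noncomputable def uA (s : ℝ) (e x : E) : ℝ :=
  ⟪gR s (-e) + gR s ((-2 : ℝ) • e), x + e⟫ - 2 * s * ‖x + e‖ ^ 2

/-- The reduced cost. -/
noncomputable def FF (s : ℝ) (e x y z : E) : ℝ := cR s x y z - uA s e x + 2 * s * ‖y‖ ^ 2

theorem mono_aux {s : ℝ} (hs : 0 < s) (D R : E × E) (a b : E) (hne : (a, b) ≠ 0)
    (h4 : s * (‖a‖ ^ 2 + ‖b‖ ^ 2) ≤ ⟪D.1, a⟫ + ⟪D.2, b⟫)
    (h3 : ‖R‖ ≤ s / 4 * ‖((a, b, 0) : E × E × E)‖) :
    0 < ⟪(D + R).1, a⟫ + ⟪(D + R).2, b⟫ := by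
  rw [Prod.fst_add, Prod.snd_add, inner_add_left, inner_add_left]
  have n1 : ‖R.1‖ ≤ ‖R‖ := norm_fst_le R
  have n2 : ‖R.2‖ ≤ ‖R‖ := norm_snd_le R
  have n3 : ‖((a, b, 0) : E × E × E)‖ ≤ ‖a‖ + ‖b‖ := by
    simp only [Prod.norm_mk, norm_zero]
    exact max_le (by linarith [norm_nonneg b]) (max_le (by linarith [norm_nonneg a])
      (by positivity))
  have i1 := neg_le_of_abs_le (abs_real_inner_le_norm R.1 a)
  have i2 := neg_le_of_abs_le (abs_real_inner_le_norm R.2 b)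
  have n4 : ‖R‖ ≤ s / 4 * (‖a‖ + ‖b‖) := h3.trans (by gcongr)
  have n5 : ‖R.1‖ * ‖a‖ ≤ s / 4 * (‖a‖ + ‖b‖) * ‖a‖ :=
    mul_le_mul_of_nonneg_right (n1.trans n4) (norm_nonneg _)
  have n6 : ‖R.2‖ * ‖b‖ ≤ s / 4 * (‖a‖ + ‖b‖) * ‖b‖ :=
    mul_le_mul_of_nonneg_right (n2.trans n4) (norm_nonneg _)
  have n7 : 0 < ‖a‖ ^ 2 + ‖b‖ ^ 2 := by
    by_contra hc
    have ha : ‖a‖ = 0 := by nlinarith [sq_nonneg ‖a‖, sq_nonneg ‖b‖, norm_nonneg a]
    have hb : ‖b‖ = 0 := by nlinarith [sq_nonneg ‖a‖, sq_nonneg ‖b‖, norm_nonneg b]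
    apply hne
    rw [norm_eq_zero.mp ha, norm_eq_zero.mp hb]; rfl
  have n8 := mul_pos hs n7
  have n9 := mul_nonneg hs.le (sq_nonneg (‖a‖ - ‖b‖))
  nlinarith

theorem strict_aux {A B : Type*} [NormedAddCommGroup A] [NormedSpace ℝ A] [NormedAddCommGroup B]
    [NormedSpace ℝ B] {G : A → B} {D : A →L[ℝ] B} {p0 : A} (h1 : HasStrictFDerivAt G D p0)
    {c : ℝ} (hc : 0 < c) {U : Set A} (hU : U ∈ 𝓝 p0) :
    ∃ ρ > 0, Metric.ball p0 ρ ⊆ U ∧ ∀ p ∈ Metric.ball p0 ρ, ∀ p' ∈ Metric.ball p0 ρ,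
      ‖G p - G p' - D (p - p')‖ ≤ c * ‖p - p'‖ := by
  have h2 := h1.isLittleO.def hc
  rw [nhds_prod_eq] at h2
  obtain ⟨A, hA, B, hB, hAB⟩ := Filter.mem_prod_iff.mp h2
  obtain ⟨ρ, hρ, hball⟩ := Metric.mem_nhds_iff.mp (inter_mem (inter_mem hA hB) hU)
  exact ⟨ρ, hρ, fun p hp => (hball hp).2, fun p hp p' hp' =>
    hAB (mk_mem_prod (hball hp).1.1 (hball hp').1.2)⟩

theorem exists_mono {s : ℝ} (hs : 0 < s) {e : E} (he : ‖e‖ = 1) :
    ∃ ρ > 0, Metric.ball ((-e, 0, e) : E × E × E) ρ ⊆ Dist E ∧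
      ∀ p ∈ Metric.ball ((-e, 0, e) : E × E × E) ρ, ∀ p' ∈ Metric.ball ((-e, 0, e) : E × E × E) ρ,
        ∀ a b : E, p - p' = (a, b, 0) → (a, b) ≠ 0 →
          0 < ⟪(GG s e p - GG s e p').1, a⟫ + ⟪(GG s e p - GG s e p').2, b⟫ := by
  have h1 : HasStrictFDerivAt (GG s e) (fderiv ℝ (GG s e) (-e, 0, e)) (-e, 0, e) :=
    (contDiffAt_GG s e (base_mem_Dist he)).hasStrictFDerivAt (by simp)
  obtain ⟨ρ, hρ, hball, h2⟩ := strict_aux h1 (show 0 < s / 4 by positivity)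
    (isOpen_Dist.mem_nhds (base_mem_Dist he))
  refine ⟨ρ, hρ, hball, fun p hp p' hp' a b hab hne => ?_⟩
  have h3 := h2 p hp p' hp'
  rw [hab] at h3
  have h4 := mono_aux hs _ _ a b hne (DG_pos hs he a b) h3
  rwa [add_sub_cancel] at h4

theorem hasDerivAt_FF (s : ℝ) (e x y z a b : E) (t : ℝ)
    (hp : ((x + t • a, y + t • b, z) : E × E × E) ∈ Dist E) :
    HasDerivAt (fun t : ℝ => FF s e (x + t • a) (y + t • b) z)
      (⟪(GG s e (x + t • a, y + t • b, z)).1, a⟫ + ⟪(GG s e (x + t • a, y + t • b, z)).2, b⟫) t := by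
  have lx : HasDerivAt (fun t : ℝ => x + t • a) a t := by
    simpa using ((hasDerivAt_id t).smul_const a).const_add x
  have ly : HasDerivAt (fun t : ℝ => y + t • b) b t := by
    simpa using ((hasDerivAt_id t).smul_const b).const_add y
  have h1 := (hasFDerivAt_wR s hp.1).comp_hasDerivAt t (lx.sub ly)
  have h2 := (hasFDerivAt_wR s hp.2.1).comp_hasDerivAt t (lx.sub_const z)
  have h3 := (hasFDerivAt_wR s hp.2.2).comp_hasDerivAt t (ly.sub_const z)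
  have h4 := (hasDerivAt_const t (gR s (-e) + gR s ((-2 : ℝ) • e))).inner ℝ (lx.add_const e)
  have h5 := ((lx.add_const e).norm_sq).const_mul (2 * s)
  have h6 := (ly.norm_sq).const_mul (2 * s)
  refine (((((h1.add h2).add h3).sub (h4.sub h5)).add h6)).congr_deriv ?_
  simp only [GG, innerSL_apply_apply, inner_add_left, inner_sub_left, inner_sub_right,
    inner_smul_left, inner_neg_left, conj_trivial, inner_zero_left]
  ring

theorem exists_min {s : ℝ} (hs : 0 < s) {e : E} (he : ‖e‖ = 1) :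
    ∃ ρ > 0, ∀ x y x' y' z : E, ((x, y, z) : E × E × E) ∈ Metric.ball (-e, 0, e) ρ →
      ((x', y', z) : E × E × E) ∈ Metric.ball (-e, 0, e) ρ → GG s e (x', y', z) = 0 →
      (x, y) ≠ (x', y') → FF s e x' y' z < FF s e x y z := by
  obtain ⟨ρ, hρ, hD, hmono⟩ := exists_mono hs he
  refine ⟨ρ, hρ, fun x y x' y' z h1 h2 hG hne => ?_⟩
  have hmem : ∀ t ∈ Icc (0 : ℝ) 1,
      ((x' + t • (x - x'), y' + t • (y - y'), z) : E × E × E) ∈ Metric.ball (-e, 0, e) ρ := by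
    intro t ht
    have := (convex_ball ((-e, 0, e) : E × E × E) ρ).add_smul_sub_mem h2 h1 ht
    simpa using this
  have hd := fun t ht => hasDerivAt_FF s e x' y' z (x - x') (y - y') t (hD (hmem t ht))
  obtain ⟨t, ht, hteq⟩ := exists_hasDerivAt_eq_slope _ _ (show (0 : ℝ) < 1 by norm_num)
    (fun t ht => (hd t ht).continuousAt.continuousWithinAt)
    (fun t ht => hd t (Ioo_subset_Icc_self ht))
  have h3 := hmono _ (hmem t (Ioo_subset_Icc_self ht)) _ h2 (t • (x - x')) (t • (y - y'))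
    (by simp) (by
      intro h
      apply hne
      rw [Prod.mk_eq_zero, smul_eq_zero, smul_eq_zero] at h
      rw [sub_eq_zero.mp (h.1.resolve_left ht.1.ne'), sub_eq_zero.mp (h.2.resolve_left ht.1.ne')])
  rw [hG, sub_zero, inner_smul_right, inner_smul_right, ← mul_add, hteq] at h3
  have h4 := (mul_pos_iff_of_pos_left ht.1).mp h3
  simpa using h4

theorem local_branch {s : ℝ} (hs : 0 < s) {e : E} (he : ‖e‖ = 1) :
    ∃ X Z : OpenPartialHomeomorph E E, 0 ∈ X.source ∧ 0 ∈ Z.source ∧ X 0 = -e ∧ Z 0 = e ∧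
      ContDiffOn ℝ ∞ X.symm X.target ∧ (∀ x ∈ X.target, (fderiv ℝ X.symm x).det ≠ 0) ∧
      ContDiffOn ℝ ∞ Z.symm Z.target ∧ (∀ x ∈ Z.target, (fderiv ℝ Z.symm x).det ≠ 0) ∧
      ∀ᶠ q : E × E × E in 𝓝 (0, 0, 0), ¬ (q.1 = q.2.1 ∧ q.2.1 = q.2.2) →
        FF s e (X q.2.2) q.2.2 (Z q.2.2) < FF s e (X q.1) q.2.1 (Z q.2.2) := by
  set p0 : E × E × E := (-e, 0, e) with hp0
  let Θ : E × E × E → E × E × E := fun p => ((GG s e p).1, p.2.1, (GG s e p).2)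
  have hΘ : ∀ p ∈ Dist E, ContDiffAt ℝ ∞ Θ p := fun p hp =>
    (contDiffAt_GG s e hp).fst.prodMk (contDiffAt_snd.fst.prodMk (contDiffAt_GG s e hp).snd)
  have hG : HasFDerivAt (GG s e) (fderiv ℝ (GG s e) p0) p0 :=
    ((contDiffAt_GG s e (base_mem_Dist he)).differentiableAt (by simp)).hasFDerivAt
  have hDΘ : ∀ v : E × E × E, fderiv ℝ Θ p0 v =
      ((fderiv ℝ (GG s e) p0 v).1, v.2.1, (fderiv ℝ (GG s e) p0 v).2) := by
    intro v
    have h := hG.fst.prodMk ((hasFDerivAt_snd (𝕜 := ℝ) (p := p0)).fst.prodMk hG.snd)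
    have h' : fderiv ℝ Θ p0 = _ := h.fderiv
    rw [h']
    simp
  obtain ⟨Φ, hΦ, hsrc, hsub, hsm, -⟩ := exists_localDiffeo (f := Θ) isOpen_Dist
    (fun p hp => (hΘ p hp).contDiffWithinAt) (base_mem_Dist he) (by
      rintro ⟨a, b, c⟩ h
      rw [hDΘ, Prod.mk_eq_zero, Prod.mk_eq_zero] at h
      obtain ⟨h1, h2, h3⟩ := h
      obtain rfl : b = 0 := h2
      obtain ⟨rfl, rfl⟩ := DG_inj_b hs he (Prod.ext h1 h3)
      rfl)
  have hΘ0 : Φ p0 = (0, 0, 0) := by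
    rw [hΦ]
    simp only [Θ, hp0, GG_base]
    rfl
  let ι : E → E × E × E := fun y => (0, y, 0)
  have hι : ContDiff ℝ ∞ ι := by fun_prop
  let W : Set E := ι ⁻¹' Φ.target
  have hW : IsOpen W := Φ.open_target.preimage hι.continuous
  have h0W : (0 : E) ∈ W := by
    have := Φ.map_source hsrc
    rwa [hΘ0] at this
  let σ : E → E × E × E := fun y => Φ.symm (ι y)
  have hσ : ContDiffOn ℝ ∞ σ W := hsm.comp hι.contDiffOn (fun y hy => hy)
  have hσ0 : σ 0 = p0 := by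
    have := Φ.left_inv hsrc
    rwa [hΘ0] at this
  have hΘσ : ∀ y ∈ W, Θ (σ y) = ι y := fun y hy => by
    rw [← hΦ]; exact Φ.right_inv hy
  have hσd : HasFDerivAt σ (fderiv ℝ σ 0) 0 :=
    ((hσ.contDiffAt (hW.mem_nhds h0W)).differentiableAt (by simp)).hasFDerivAt
  have hker : ∀ b, fderiv ℝ (GG s e) p0 (fderiv ℝ σ 0 b) = 0 ∧ (fderiv ℝ σ 0 b).2.1 = b := by
    intro b
    have h1 : HasFDerivAt Θ (fderiv ℝ Θ p0) (σ 0) := by
      rw [hσ0]
      exact ((hΘ _ (base_mem_Dist he)).differentiableAt (by simp)).hasFDerivAt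
    have h2 : HasFDerivAt ι ((fderiv ℝ Θ p0).comp (fderiv ℝ σ 0)) 0 := by
      refine (h1.comp 0 hσd).congr_of_eventuallyEq ?_
      filter_upwards [hW.mem_nhds h0W] with y hy
      exact (hΘσ y hy).symm
    have h3 : HasFDerivAt ι _ (0 : E) := (hasFDerivAt_const (𝕜 := ℝ) (0 : E) (0 : E)).prodMk
      ((hasFDerivAt_id (0 : E)).prodMk (hasFDerivAt_const (0 : E) (0 : E)))
    have h4 := congrArg (fun A : E →L[ℝ] E × E × E => A b) (h2.unique h3)
    simp only [ContinuousLinearMap.comp_apply, hDΘ, ContinuousLinearMap.prod_apply,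
      zero_apply, ContinuousLinearMap.id_apply, Prod.mk.injEq] at h4
    exact ⟨Prod.ext h4.1 h4.2.2, h4.2.1⟩
  obtain ⟨X, hX, hX0, hXW, hX1, hX2⟩ := exists_localDiffeo (f := fun y => (σ y).1) hW
    hσ.fst h0W (by
      intro b hb
      rw [hσd.fst.fderiv] at hb
      obtain ⟨k1, k2⟩ := hker b
      have k3 : fderiv ℝ σ 0 b = (0, b, (fderiv ℝ σ 0 b).2.2) :=
        Prod.ext hb (Prod.ext k2 rfl)
      rw [k3] at k1
      exact DG_inj_a hs he k1)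
  obtain ⟨Z, hZ, hZ0, hZW, hZ1, hZ2⟩ := exists_localDiffeo (f := fun y => (σ y).2.2) hW
    hσ.snd.snd h0W (by
      intro b hb
      rw [hσd.snd.snd.fderiv] at hb
      obtain ⟨k1, k2⟩ := hker b
      have k3 : fderiv ℝ σ 0 b = ((fderiv ℝ σ 0 b).1, b, 0) :=
        Prod.ext rfl (Prod.ext k2 hb)
      rw [k3] at k1
      have k4 := DG_pos hs he (fderiv ℝ σ 0 b).1 b
      rw [k1] at k4
      simp only [Prod.fst_zero, Prod.snd_zero, inner_zero_left, add_zero] at k4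
      have k5 : ‖(fderiv ℝ σ 0 b).1‖ ^ 2 + ‖b‖ ^ 2 ≤ 0 := by
        by_contra hc
        exact absurd k4 (not_le.mpr (mul_pos hs (not_le.mp hc)))
      have k6 : ‖b‖ = 0 := by nlinarith [sq_nonneg ‖(fderiv ℝ σ 0 b).1‖, norm_nonneg b]
      exact norm_eq_zero.mp k6)
  have eX0 : X 0 = -e := by rw [hX]; simp only [hσ0, hp0]
  have eZ0 : Z 0 = e := by rw [hZ]; simp only [hσ0, hp0]
  refine ⟨X, Z, hX0, hZ0, eX0, eZ0, hX1, hX2, hZ1, hZ2, ?_⟩
  obtain ⟨ρ, hρ, hmin⟩ := exists_min hs he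
  have cX : ContinuousAt X 0 := X.continuousAt hX0
  have cZ : ContinuousAt Z 0 := Z.continuousAt hZ0
  have t1 : Tendsto (fun q : E × E × E => q.1) (𝓝 (0, 0, 0)) (𝓝 0) := continuous_fst.tendsto _
  have t2 : Tendsto (fun q : E × E × E => q.2.1) (𝓝 (0, 0, 0)) (𝓝 0) :=
    continuous_snd.fst.tendsto _
  have t3 : Tendsto (fun q : E × E × E => q.2.2) (𝓝 (0, 0, 0)) (𝓝 0) :=
    continuous_snd.snd.tendsto _
  have b1 : Tendsto (fun q : E × E × E => ((X q.1, q.2.1, Z q.2.2) : E × E × E)) (𝓝 (0, 0, 0))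
      (𝓝 p0) := by
    rw [hp0, ← eX0]
    conv => enter [3, 1, 2, 2]; rw [← eZ0]
    exact (cX.tendsto.comp t1).prodMk_nhds (t2.prodMk_nhds (cZ.tendsto.comp t3))
  have b2 : Tendsto (fun q : E × E × E => ((X q.2.2, q.2.2, Z q.2.2) : E × E × E)) (𝓝 (0, 0, 0))
      (𝓝 p0) := by
    rw [hp0, ← eX0]
    conv => enter [3, 1, 2, 2]; rw [← eZ0]
    exact (cX.tendsto.comp t3).prodMk_nhds (t3.prodMk_nhds (cZ.tendsto.comp t3))
  filter_upwards [b1.eventually (Metric.ball_mem_nhds p0 hρ),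
    b2.eventually (Metric.ball_mem_nhds p0 hρ), t1.eventually (X.open_source.mem_nhds hX0),
    t3.eventually (X.open_source.mem_nhds hX0)] with q q1 q2 q3 q4 hne
  refine hmin _ _ _ _ _ q1 q2 ?_ ?_
  · have k1 := hΘσ _ (hXW q4)
    simp only [Θ, ι, Prod.mk.injEq] at k1
    have k2 : ((X q.2.2, q.2.2, Z q.2.2) : E × E × E) = σ q.2.2 := by
      rw [hX, hZ]
      exact Prod.ext rfl (Prod.ext k1.2.1.symm rfl)
    rw [k2]
    exact Prod.ext k1.1 k1.2.2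
  · intro h
    rw [Prod.mk.injEq] at h
    have k1 := X.injOn q3 q4 h.1
    exact hne ⟨k1.trans h.2.symm, h.2⟩

end Crest.Agent.R130
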