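import Mathlib
import Crest.Prelude.Def_MultiMarginal
import Crest.Agent.R82.Monge

set_option autoImplicit false
set_option linter.unusedSectionVars false

namespace Crest.Agent.R130

open MeasureTheory Filter Topology Set
open scoped ENNReal ContDiff
open Crest.AnalysisR.OT

/-- The admissible label triples. -/
def Good (i j k : Fin 5) : Prop :=
  ({i, j, k} : Finset (Fin 5)) = {0, 1, 2} ∨ ({i, j, k} : Finset (Fin 5)) = {0, 3, 4}

instance (i j k : Fin 5) : Decidable (Good i j k) := by unfold Good; infer_instance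

theorem good_count : ∀ a b c : Fin 5, Good a b c →
    ((if a = 1 then 1 else 0) + (if b = 1 then 1 else 0) + (if c = 1 then 1 else 0) : ℕ) =
      if (a = 1 ∨ a = 2 ∨ (a = 0 ∧ (b = 1 ∨ c = 1))) then 1 else 0 := by decide

variable {E : Type*} [MeasurableSpace E] [StandardBorelSpace E]

/-- The marginal. -/
noncomputable def marg (ν : Measure E) (Ψ : Fin 5 → E → E) : Measure E :=
  ν.map (Ψ 0) + ν.map (Ψ 0) + ν.map (Ψ 1) + ν.map (Ψ 2) + ν.map (Ψ 3) + ν.map (Ψ 4)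

/-- A triple of cluster points. -/
def tri (Ψ : Fin 5 → E → E) (i j k : Fin 5) (y : E) : E × E × E := (Ψ i y, Ψ j y, Ψ k y)

/-- The optimal plan. -/
noncomputable def plan (ν : Measure E) (Ψ : Fin 5 → E → E) : Measure (E × E × E) :=
  ν.map (tri Ψ 0 1 2) + ν.map (tri Ψ 1 2 0) + ν.map (tri Ψ 2 0 1) +
    ν.map (tri Ψ 0 3 4) + ν.map (tri Ψ 3 4 0) + ν.map (tri Ψ 4 0 3)

theorem measurable_tri {Ψ : Fin 5 → E → E} (hΨ : ∀ i, Measurable (Ψ i)) (i j k : Fin 5) :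
    Measurable (tri Ψ i j k) := (hΨ i).prodMk ((hΨ j).prodMk (hΨ k))

theorem plan_coupling (ν : Measure E) {Ψ : Fin 5 → E → E} (hΨ : ∀ i, Measurable (Ψ i)) :
    IsCoupling₃ (marg ν Ψ) (plan ν Ψ) := by
  have m1 : Measurable fun p : E × E × E => p.1 := measurable_fst
  have m2 : Measurable fun p : E × E × E => p.2.1 := measurable_snd.fst
  have m3 : Measurable fun p : E × E × E => p.2.2 := measurable_snd.snd
  have e1 : ∀ i j k, (ν.map (tri Ψ i j k)).map (fun p : E × E × E => p.1) = ν.map (Ψ i) :=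
    fun i j k => by rw [Measure.map_map m1 (measurable_tri hΨ i j k)]; rfl
  have e2 : ∀ i j k, (ν.map (tri Ψ i j k)).map (fun p : E × E × E => p.2.1) = ν.map (Ψ j) :=
    fun i j k => by rw [Measure.map_map m2 (measurable_tri hΨ i j k)]; rfl
  have e3 : ∀ i j k, (ν.map (tri Ψ i j k)).map (fun p : E × E × E => p.2.2) = ν.map (Ψ k) :=
    fun i j k => by rw [Measure.map_map m3 (measurable_tri hΨ i j k)]; rfl
  refine ⟨?_, ?_, ?_⟩
  · simp only [plan, marg, Measure.map_add _ _ m1, e1]; abel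
  · simp only [plan, marg, Measure.map_add _ _ m2, e2]; abel
  · simp only [plan, marg, Measure.map_add _ _ m3, e3]; abel

theorem ae_plan {ν : Measure E} {K : Set E} (hνK : ∀ᵐ y ∂ν, y ∈ K) {Ψ : Fin 5 → E → E}
    (hΨ : ∀ i, Measurable (Ψ i)) {P : E × E × E → Prop} (hP : MeasurableSet {p | P p})
    (h : ∀ i j k, Good i j k → ∀ y ∈ K, P (tri Ψ i j k y)) : ∀ᵐ p ∂(plan ν Ψ), P p := by
  have key : ∀ i j k, Good i j k → ∀ᵐ p ∂(ν.map (tri Ψ i j k)), P p := fun i j k hg =>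
    (ae_map_iff (measurable_tri hΨ i j k).aemeasurable hP).mpr (hνK.mono (h i j k hg))
  simp only [plan, ae_add_measure_iff]
  exact ⟨⟨⟨⟨⟨key _ _ _ (by decide), key _ _ _ (by decide)⟩, key _ _ _ (by decide)⟩,
    key _ _ _ (by decide)⟩, key _ _ _ (by decide)⟩, key _ _ _ (by decide)⟩

theorem marg_apply {ν : Measure E} {K : Set E} (hνK : ∀ᵐ y ∂ν, y ∈ K) {Ψ : Fin 5 → E → E}
    (hΨ : ∀ i, Measurable (Ψ i)) {W : Set E} (hW : MeasurableSet W) (D : Fin 5 → Set E)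
    (h : ∀ i, ∀ y ∈ K, (Ψ i y ∈ W ↔ y ∈ D i)) :
    marg ν Ψ W = ν (D 0) + ν (D 0) + ν (D 1) + ν (D 2) + ν (D 3) + ν (D 4) := by
  have key : ∀ i, ν.map (Ψ i) W = ν (D i) := fun i => by
    rw [Measure.map_apply (hΨ i) hW]
    exact measure_congr (hνK.mono fun y hy => propext (h i y hy))
  simp only [marg, Measure.add_apply, key]

theorem abstract_main (ν : Measure E) [IsFiniteMeasure ν] (hν : ν ≠ 0) {K : Set E}
    (hK : MeasurableSet K) (hνK : ∀ᵐ y ∂ν, y ∈ K) {Ψ : Fin 5 → E → E}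
    (hΨ : ∀ i, Measurable (Ψ i))
    (hinj : ∀ i j, ∀ y ∈ K, ∀ y' ∈ K, Ψ i y = Ψ j y' → i = j ∧ y = y')
    {u : Fin 5 → E → ℝ≥0∞} (hu : ∀ i, Measurable (u i)) {M : ℝ≥0∞} (hM : M ≠ ⊤)
    (huM : ∀ i, ∀ y ∈ K, u i y ≤ M) {c : E × E × E → ℝ≥0∞} (hc : Measurable c)
    (hle : ∀ i j k, ∀ y₁ ∈ K, ∀ y₂ ∈ K, ∀ y₃ ∈ K,
      u i y₁ + u j y₂ + u k y₃ ≤ c (Ψ i y₁, Ψ j y₂, Ψ k y₃))
    (heq : ∀ i j k, ∀ y₁ ∈ K, ∀ y₂ ∈ K, ∀ y₃ ∈ K,
      u i y₁ + u j y₂ + u k y₃ = c (Ψ i y₁, Ψ j y₂, Ψ k y₃) → Good i j k ∧ y₁ = y₂ ∧ y₂ = y₃)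
    (hgood : ∀ i j k, Good i j k → ∀ y ∈ K, c (Ψ i y, Ψ j y, Ψ k y) = u i y + u j y + u k y) :
    ∫⁻ p, c p ∂(plan ν Ψ) < ⊤ ∧ (∀ᵐ p ∂(plan ν Ψ), c p ≤ M + M + M) ∧
    (∀ π, IsCoupling₃ (marg ν Ψ) π → ∫⁻ p, c p ∂(plan ν Ψ) ≤ ∫⁻ p, c p ∂π) ∧
    (∀ T₂ T₃ : E → E, Measurable T₂ → Measurable T₃ → (marg ν Ψ).map T₂ = marg ν Ψ →
      (marg ν Ψ).map T₃ = marg ν Ψ →
      ∫⁻ p, c p ∂(plan ν Ψ) < ∫⁻ x, c (x, T₂ x, T₃ x) ∂(marg ν Ψ)) := by
  classical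
  have hKne : K.Nonempty := by
    have : (ae ν).NeBot := ae_neBot.mpr hν
    exact hνK.exists
  obtain ⟨y0, hy0⟩ := hKne
  have hΨu : Measurable fun p : Fin 5 × E => Ψ p.1 p.2 :=
    measurable_from_prod_countable_right hΨ
  have huu : Measurable fun p : Fin 5 × E => u p.1 p.2 :=
    measurable_from_prod_countable_right hu
  have hs : MeasurableSet {p : Fin 5 × E | p.2 ∈ K} := measurable_snd hK
  have := hs.standardBorel
  have hemb : MeasurableEmbedding fun p : {p : Fin 5 × E | p.2 ∈ K} => Ψ p.1.1 p.1.2 := by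
    refine Measurable.measurableEmbedding (hΨu.comp measurable_subtype_coe) ?_
    rintro ⟨⟨i, y⟩, hy⟩ ⟨⟨j, y'⟩, hy'⟩ h
    obtain ⟨rfl, rfl⟩ := hinj i j y hy y' hy' h
    rfl
  obtain ⟨L, hL, hLe⟩ := hemb.exists_measurable_extend (g := Subtype.val) measurable_subtype_coe
    (fun _ => ⟨(0, y0)⟩)
  have hLΨ : ∀ i, ∀ y ∈ K, L (Ψ i y) = (i, y) := fun i y hy => congrFun hLe ⟨(i, y), hy⟩
  let S : Set E := {x | (L x).2 ∈ K ∧ Ψ (L x).1 (L x).2 = x}
  have hS : MeasurableSet S :=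
    (hL.snd hK).inter (measurableSet_eq_fun (hΨu.comp hL) measurable_id)
  have hΨS : ∀ i, ∀ y ∈ K, Ψ i y ∈ S := fun i y hy => by
    simp only [S, mem_ofPred_eq, hLΨ i y hy]; exact ⟨hy, trivial⟩
  set μ := marg ν Ψ with hμ
  have hμS : ∀ᵐ x ∂μ, x ∈ S := by
    have key : ∀ i, ∀ᵐ x ∂(ν.map (Ψ i)), x ∈ S := fun i =>
      (ae_map_iff (hΨ i).aemeasurable hS).mpr (hνK.mono (hΨS i))
    simp only [hμ, marg, ae_add_measure_iff]
    exact ⟨⟨⟨⟨⟨key _, key _⟩, key _⟩, key _⟩, key _⟩, key _⟩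
  have hfin : IsFiniteMeasure μ := by rw [hμ, marg]; infer_instance
  let U : E → ℝ≥0∞ := fun x => u (L x).1 (L x).2
  have hU : Measurable U := huu.comp hL
  have hUΨ : ∀ i, ∀ y ∈ K, U (Ψ i y) = u i y := fun i y hy => by simp only [U, hLΨ i y hy]
  set V := ∫⁻ x, U x ∂μ with hV
  have hVfin : V ≠ ⊤ := by
    have : V ≤ ∫⁻ _, M ∂μ := lintegral_mono_ae (hμS.mono fun x hx => huM _ _ hx.1)
    rw [lintegral_const] at this
    exact ne_top_of_le_ne_top (ENNReal.mul_ne_top hM (measure_ne_top _ _)) this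
  have hsum : ∀ {X : Type _} [MeasurableSpace X] (π : Measure X) (f₁ f₂ f₃ : X → E),
      Measurable f₁ → Measurable f₂ → Measurable f₃ → π.map f₁ = μ → π.map f₂ = μ →
      π.map f₃ = μ → ∀ g : E → ℝ≥0∞, Measurable g →
      ∫⁻ p, g (f₁ p) + g (f₂ p) + g (f₃ p) ∂π = ∫⁻ x, g x ∂μ + ∫⁻ x, g x ∂μ + ∫⁻ x, g x ∂μ := by
    intro X _ π f₁ f₂ f₃ m1 m2 m3 e1 e2 e3 g hg
    have n2 : Measurable fun p => g (f₂ p) := hg.comp m2
    have n3 : Measurable fun p => g (f₃ p) := hg.comp m3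
    rw [lintegral_add_right _ n3, lintegral_add_right _ n2,
      ← lintegral_map hg m1, ← lintegral_map hg m2, ← lintegral_map hg m3, e1, e2, e3]
  have hae : ∀ {X : Type _} [MeasurableSpace X] (π : Measure X) (f : X → E),
      Measurable f → π.map f = μ → ∀ᵐ p ∂π, f p ∈ S := by
    intro X _ π f m e
    have := hμS
    rw [← e] at this
    exact ae_of_ae_map m.aemeasurable this
  have m1 : Measurable fun p : E × E × E => p.1 := measurable_fst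
  have m2 : Measurable fun p : E × E × E => p.2.1 := measurable_snd.fst
  have m3 : Measurable fun p : E × E × E => p.2.2 := measurable_snd.snd
  have hle' : ∀ x₁ ∈ S, ∀ x₂ ∈ S, ∀ x₃ ∈ S, U x₁ + U x₂ + U x₃ ≤ c (x₁, x₂, x₃) := by
    intro x₁ h₁ x₂ h₂ x₃ h₃
    have := hle (L x₁).1 (L x₂).1 (L x₃).1 _ h₁.1 _ h₂.1 _ h₃.1
    rwa [h₁.2, h₂.2, h₃.2] at this
  have heq' : ∀ x₁ ∈ S, ∀ x₂ ∈ S, ∀ x₃ ∈ S, U x₁ + U x₂ + U x₃ = c (x₁, x₂, x₃) →
      Good (L x₁).1 (L x₂).1 (L x₃).1 ∧ (L x₁).2 = (L x₂).2 ∧ (L x₂).2 = (L x₃).2 := by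
    intro x₁ h₁ x₂ h₂ x₃ h₃ h
    refine heq (L x₁).1 (L x₂).1 (L x₃).1 _ h₁.1 _ h₂.1 _ h₃.1 ?_
    rwa [h₁.2, h₂.2, h₃.2]
  obtain ⟨c1, c2, c3⟩ := plan_coupling ν hΨ
  have hopt : ∫⁻ p, c p ∂(plan ν Ψ) = V + V + V := by
    rw [← hsum (plan ν Ψ) _ _ _ m1 m2 m3 c1 c2 c3 U hU]
    refine lintegral_congr_ae (ae_plan hνK hΨ (measurableSet_eq_fun hc
      (((hU.comp m1).add (hU.comp m2)).add (hU.comp m3))) fun i j k hg y hy => ?_)
    simp only [tri, hUΨ _ y hy]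
    exact hgood i j k hg y hy
  have hV3 : V + V + V ≠ ⊤ := by simp [hVfin]
  refine ⟨by rw [hopt]; exact hV3.lt_top, ?_, ?_, ?_⟩
  · refine ae_plan hνK hΨ (measurableSet_le hc measurable_const) fun i j k hg y hy => ?_
    simp only [tri]
    rw [hgood i j k hg y hy]
    exact add_le_add (add_le_add (huM _ _ hy) (huM _ _ hy)) (huM _ _ hy)
  · rintro π ⟨d1, d2, d3⟩
    rw [hopt, ← hsum π _ _ _ m1 m2 m3 d1 d2 d3 U hU]
    refine lintegral_mono_ae ?_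
    filter_upwards [hae π _ m1 d1, hae π _ m2 d2, hae π _ m3 d3] with p h1 h2 h3
    exact hle' _ h1 _ h2 _ h3
  · intro T₂ T₃ t2 t3 d2 d3
    by_contra hcon
    rw [not_lt, hopt] at hcon
    have d1 : μ.map (fun x => x) = μ := Measure.map_id
    have hint := hsum μ _ _ _ measurable_id' t2 t3 d1 d2 d3
    have a2 := hae μ _ t2 d2
    have a3 := hae μ _ t3 d3
    have hcm : Measurable fun x => c (x, T₂ x, T₃ x) :=
      hc.comp (measurable_id.prodMk (t2.prodMk t3))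
    have haeq := ae_eq_of_ae_le_of_lintegral_le (μ := μ)
      (f := fun x => U x + U (T₂ x) + U (T₃ x)) (g := fun x => c (x, T₂ x, T₃ x))
      (by filter_upwards [hμS, a2, a3] with x h1 h2 h3 using hle' _ h1 _ h2 _ h3)
      (by rw [hint U hU]; exact hV3) hcm.aemeasurable (by rw [hint U hU]; exact hcon)
    let E' : Set E := {x | (L (T₂ x)).1 = 1 ∨ (L (T₃ x)).1 = 1}
    have hE' : MeasurableSet E' :=
      ((hL.comp t2).fst (measurableSet_singleton 1)).union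
        ((hL.comp t3).fst (measurableSet_singleton 1))
    have key : ∀ D : Set E, MeasurableSet D →
        ν D + ν D + ν D = ν (D ∩ Ψ 0 ⁻¹' E') + ν (D ∩ Ψ 0 ⁻¹' E') + ν D + ν D := by
      intro D hD
      let W : Set E := {x | (L x).1 = 1 ∧ (L x).2 ∈ D}
      have hW : MeasurableSet W := (hL.fst (measurableSet_singleton 1)).inter (hL.snd hD)
      let W' : Set E := {x | (L x).2 ∈ D ∧ ((L x).1 = 1 ∨ (L x).1 = 2 ∨ ((L x).1 = 0 ∧ x ∈ E'))}
      have hW' : MeasurableSet W' := (hL.snd hD).inter ((hL.fst (measurableSet_singleton 1)).union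
        ((hL.fst (measurableSet_singleton 2)).union
          ((hL.fst (measurableSet_singleton 0)).inter hE')))
      have q1 : μ W = ν D := by
        rw [hμ, marg_apply hνK hΨ hW ![∅, D, ∅, ∅, ∅]]
        · simp
        · intro i y hy
          simp only [W, mem_ofPred_eq, hLΨ i y hy]
          fin_cases i <;> simp
      have q2 : μ W' = ν (D ∩ Ψ 0 ⁻¹' E') + ν (D ∩ Ψ 0 ⁻¹' E') + ν D + ν D := by
        rw [hμ, marg_apply hνK hΨ hW' ![D ∩ Ψ 0 ⁻¹' E', D, D, ∅, ∅]]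
        · simp
        · intro i y hy
          simp only [W', mem_ofPred_eq, hLΨ i y hy]
          fin_cases i <;> simp
      have q3 := hint (W.indicator 1) (measurable_one.indicator hW)
      rw [lintegral_indicator_one hW, q1] at q3
      rw [← q3, ← q2, ← lintegral_indicator_one hW']
      refine lintegral_congr_ae ?_
      filter_upwards [hμS, a2, a3, haeq] with x h1 h2 h3 h4
      obtain ⟨g, e1, e2⟩ := heq' _ h1 _ h2 _ h3 h4
      have cnt := congrArg (fun n : ℕ => (n : ℝ≥0∞)) (good_count _ _ _ g)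
      by_cases hx : (L x).2 ∈ D
      · have hx2 : (L (T₂ x)).2 ∈ D := e1 ▸ hx
        have hx3 : (L (T₃ x)).2 ∈ D := e2 ▸ hx2
        simpa [Set.indicator_apply, W, W', E', hx, hx2, hx3] using cnt
      · have hx2 : (L (T₂ x)).2 ∉ D := e1 ▸ hx
        have hx3 : (L (T₃ x)).2 ∉ D := e2 ▸ hx2
        simp [W, W', hx, hx2, hx3]
    have hE0 : MeasurableSet (Ψ 0 ⁻¹' E') := hΨ 0 hE'
    have k1 := key _ hE0
    have k2 := key _ hE0.compl
    rw [inter_self] at k1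
    rw [compl_inter_self, measure_empty] at k2
    have z1 : ν (Ψ 0 ⁻¹' E') = 0 := by
      have hne : ν (Ψ 0 ⁻¹' E') + ν (Ψ 0 ⁻¹' E') + ν (Ψ 0 ⁻¹' E') ≠ ⊤ := by simp
      have := (ENNReal.add_right_inj hne).mp ((add_zero _).trans k1)
      exact this.symm
    have z2 : ν (Ψ 0 ⁻¹' E')ᶜ = 0 := by
      have hne : ν (Ψ 0 ⁻¹' E')ᶜ + ν (Ψ 0 ⁻¹' E')ᶜ ≠ ⊤ := by simp
      rw [zero_add, zero_add, ← add_zero (ν (Ψ 0 ⁻¹' E')ᶜ + ν (Ψ 0 ⁻¹' E')ᶜ)] at k2
      rw [add_zero] at k2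
      exact (ENNReal.add_right_inj hne).mp (k2.trans (add_zero _).symm)
    apply hν
    rw [← Measure.measure_univ_eq_zero, ← measure_add_measure_compl hE0, z1, z2, add_zero]

end Crest.Agent.R130
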