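import Mathlib
import Crest.Agent.R130.Branch
import Crest.Agent.R130.Measure
import Crest.Agent.R130.Approx

set_option autoImplicit false
set_option linter.unusedSectionVars false

namespace Crest.Agent.R130

open Filter Topology Set
open scoped ContDiff RealInnerProductSpace ENNReal
open Crest.AnalysisR.OT

variable {E : Type*} [NormedAddCommGroup E] [InnerProductSpace ℝ E] [FiniteDimensional ℝ E]
  [MeasurableSpace E] [BorelSpace E]

theorem pairCost_eq (s : ℝ) {x y : E} (h : x - y ≠ 0) :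
    pairCost s x y = ENNReal.ofReal (wR s (x - y)) := by
  have h1 : 0 < ‖x - y‖ := norm_pos_iff.mpr h
  rw [pairCost, ENNReal.ofReal_rpow_of_pos h1, wR, ← Real.rpow_natCast, ← Real.rpow_mul h1.le]
  congr 2
  push_cast
  ring

theorem pairCost_self {s : ℝ} (hs : 0 < s) (x : E) : pairCost s x x = ⊤ := by
  rw [pairCost, sub_self, norm_zero, ENNReal.ofReal_zero, ENNReal.zero_rpow_of_neg (by linarith)]

theorem pairCost_comm (s : ℝ) (x y : E) : pairCost s x y = pairCost s y x := by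
  rw [pairCost, pairCost, norm_sub_rev]

theorem wR_nonneg (s : ℝ) (v : E) : 0 ≤ wR s v := Real.rpow_nonneg (sq_nonneg _) _

theorem tripleCost_eq (s : ℝ) {x y z : E} (h : ((x, y, z) : E × E × E) ∈ Dist E) :
    tripleCost s (x, y, z) = ENNReal.ofReal (cR s x y z) := by
  simp only [tripleCost, cR]
  rw [pairCost_eq s h.1, pairCost_eq s h.2.1, pairCost_eq s h.2.2,
    ENNReal.ofReal_add (add_nonneg (wR_nonneg _ _) (wR_nonneg _ _)) (wR_nonneg _ _),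
    ENNReal.ofReal_add (wR_nonneg _ _) (wR_nonneg _ _)]

theorem tripleCost_swap12 (s : ℝ) (x y z : E) : tripleCost s (y, x, z) = tripleCost s (x, y, z) := by
  simp only [tripleCost, pairCost_comm s y x]; ring

theorem tripleCost_swap23 (s : ℝ) (x y z : E) : tripleCost s (x, z, y) = tripleCost s (x, y, z) := by
  simp only [tripleCost, pairCost_comm s z y]; ring

theorem measurable_wR (s : ℝ) : Measurable (wR (E := E) s) :=
  (measurable_norm.pow_const 2).pow_const _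

theorem continuous_uA (s : ℝ) (e : E) : Continuous (uA s e) := by unfold uA; fun_prop

theorem branch_data {s : ℝ} (hs : 0 < s) {e : E} (he : ‖e‖ = 1) :
    ∃ (X Z : OpenPartialHomeomorph E E) (X' Z' : E → E) (vA vC : E → ℝ),
      0 ∈ X.source ∧ 0 ∈ Z.source ∧ X' 0 = -e ∧ Z' 0 = e ∧
      ContDiffOn ℝ ∞ X.symm X.target ∧ (∀ x ∈ X.target, (fderiv ℝ X.symm x).det ≠ 0) ∧
      ContDiffOn ℝ ∞ Z.symm Z.target ∧ (∀ x ∈ Z.target, (fderiv ℝ Z.symm x).det ≠ 0) ∧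
      Measurable X' ∧ Measurable Z' ∧ (∀ y ∈ X.source, X' y = X y) ∧ (∀ y ∈ Z.source, Z' y = Z y) ∧
      Measurable vA ∧ Measurable vC ∧ ContinuousAt vA 0 ∧ ContinuousAt vC 0 ∧
      vA 0 = (4 : ℝ) ^ (-s / 2) / 2 ∧ vC 0 = (4 : ℝ) ^ (-s / 2) / 2 ∧
      ∀ᶠ q : E × E × E in 𝓝 (0, 0, 0),
        ENNReal.ofReal (vA q.1) + ENNReal.ofReal (2 - 2 * s * ‖q.2.1‖ ^ 2) +
          ENNReal.ofReal (vC q.2.2) ≤ tripleCost s (X' q.1, q.2.1, Z' q.2.2) ∧
        (ENNReal.ofReal (vA q.1) + ENNReal.ofReal (2 - 2 * s * ‖q.2.1‖ ^ 2) +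
          ENNReal.ofReal (vC q.2.2) = tripleCost s (X' q.1, q.2.1, Z' q.2.2) ↔
          q.1 = q.2.1 ∧ q.2.1 = q.2.2) := by
  classical
  obtain ⟨X, Z, hX0, hZ0, eX, eZ, hX1, hX2, hZ1, hZ2, hmin⟩ := local_branch hs he
  set β : ℝ := (4 : ℝ) ^ (-s / 2) with hβ
  have hβ0 : 0 < β := by positivity
  let X' : E → E := X.source.piecewise X 0
  let Z' : E → E := Z.source.piecewise Z 0
  have mX : Measurable X' := X.continuousOn.measurable_piecewise continuousOn_const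
    X.open_source.measurableSet
  have mZ : Measurable Z' := Z.continuousOn.measurable_piecewise continuousOn_const
    Z.open_source.measurableSet
  have eX' : ∀ y ∈ X.source, X' y = X y := fun y hy => Set.piecewise_eq_of_mem _ _ _ hy
  have eZ' : ∀ y ∈ Z.source, Z' y = Z y := fun y hy => Set.piecewise_eq_of_mem _ _ _ hy
  have X0 : X' 0 = -e := (eX' 0 hX0).trans eX
  have Z0 : Z' 0 = e := (eZ' 0 hZ0).trans eZ
  have cX : ContinuousAt X' 0 := (X.continuousAt hX0).congr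
    (Filter.mem_of_superset (X.open_source.mem_nhds hX0) fun y hy => (eX' y hy).symm)
  have cZ : ContinuousAt Z' 0 := (Z.continuousAt hZ0).congr
    (Filter.mem_of_superset (Z.open_source.mem_nhds hZ0) fun y hy => (eZ' y hy).symm)
  let vA : E → ℝ := fun y => β / 2 + uA s e (X' y)
  let vC : E → ℝ := fun y => FF s e (X' y) y (Z' y) - 2 - β / 2
  have mw := measurable_wR (E := E) s
  have mA : Measurable fun y => uA s e (X' y) := (continuous_uA s e).measurable.comp mX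
  have cA : ContinuousAt (fun y => uA s e (X' y)) 0 := (continuous_uA s e).continuousAt.comp cX
  have hD := base_mem_Dist he
  have cvA : ContinuousAt vA 0 := continuousAt_const.add cA
  have cvC : ContinuousAt vC 0 := by
    have c1 : ContinuousAt (fun y => wR s (X' y - y)) 0 :=
      ContinuousAt.comp (g := wR s) (by rw [X0]; exact (hasFDerivAt_wR s hD.1).continuousAt)
        (cX.sub continuousAt_id)
    have c2 : ContinuousAt (fun y => wR s (X' y - Z' y)) 0 :=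
      ContinuousAt.comp (g := wR s) (f := fun y => X' y - Z' y)
        (by rw [X0, Z0]; exact (hasFDerivAt_wR s hD.2.1).continuousAt) (cX.sub cZ)
    have c3 : ContinuousAt (fun y => wR s (y - Z' y)) 0 :=
      ContinuousAt.comp (g := wR s) (f := fun y => y - Z' y)
        (by rw [Z0]; exact (hasFDerivAt_wR s hD.2.2).continuousAt) (continuousAt_id.sub cZ)
    exact (((((c1.add c2).add c3).sub cA).add (by fun_prop)).sub continuousAt_const).sub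
      continuousAt_const
  have vA0 : vA 0 = β / 2 := by simp [vA, X0, uA]
  have vC0 : vC 0 = β / 2 := by
    have : ‖-e - e‖ ^ 2 = 4 := by
      have : (-e - e : E) = (-2 : ℝ) • e := by module
      rw [this, norm_smul, he]; norm_num
    simp only [vC, X0, Z0, FF, cR, uA, wR, this, ← hβ]
    simp [he]
    ring
  refine ⟨X, Z, X', Z', vA, vC, hX0, hZ0, X0, Z0, hX1, hX2, hZ1, hZ2, mX, mZ, eX', eZ',
    mA.const_add _, ?_, cvA, cvC, vA0, vC0, ?_⟩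
  · refine (Measurable.sub_const (Measurable.sub_const ?_ _) _)
    exact ((((mw.comp (mX.sub measurable_id)).add (mw.comp (mX.sub mZ))).add
      (mw.comp (measurable_id.sub mZ))).sub mA).add (by fun_prop)
  have t1 : Tendsto (fun q : E × E × E => q.1) (𝓝 (0, 0, 0)) (𝓝 0) := continuous_fst.tendsto _
  have t2 : Tendsto (fun q : E × E × E => q.2.1) (𝓝 (0, 0, 0)) (𝓝 0) :=
    continuous_snd.fst.tendsto _
  have t3 : Tendsto (fun q : E × E × E => q.2.2) (𝓝 (0, 0, 0)) (𝓝 0) :=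
    continuous_snd.snd.tendsto _
  have b1 : Tendsto (fun q : E × E × E => ((X' q.1, q.2.1, Z' q.2.2) : E × E × E)) (𝓝 (0, 0, 0))
      (𝓝 (X' 0, 0, Z' 0)) :=
    (cX.tendsto.comp t1).prodMk_nhds (t2.prodMk_nhds (cZ.tendsto.comp t3))
  rw [X0, Z0] at b1
  have p1 : ∀ᶠ y in 𝓝 (0 : E), 0 < vA y := cvA.eventually (lt_mem_nhds (by rw [vA0]; positivity))
  have p3 : ∀ᶠ y in 𝓝 (0 : E), 0 < vC y := cvC.eventually (lt_mem_nhds (by rw [vC0]; positivity))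
  have p2 : ∀ᶠ y in 𝓝 (0 : E), 0 < 2 - 2 * s * ‖y‖ ^ 2 :=
    (show ContinuousAt (fun y : E => 2 - 2 * s * ‖y‖ ^ 2) 0 by fun_prop).eventually
      (lt_mem_nhds (by simp))
  filter_upwards [hmin, b1.eventually (isOpen_Dist.mem_nhds hD), t1.eventually p1,
    t2.eventually p2, t3.eventually p3, t1.eventually (X.open_source.mem_nhds hX0),
    t3.eventually (X.open_source.mem_nhds hX0), t3.eventually (Z.open_source.mem_nhds hZ0)]
    with q q1 q2 q3 q4 q5 q6 q7 q8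
  rw [← eX' _ q6, ← eX' _ q7, ← eZ' _ q8] at q1
  have hc0 : 0 ≤ cR s (X' q.1) q.2.1 (Z' q.2.2) :=
    add_nonneg (add_nonneg (wR_nonneg _ _) (wR_nonneg _ _)) (wR_nonneg _ _)
  rw [tripleCost_eq s (x := X' q.1) (y := q.2.1) (z := Z' q.2.2) q2, ← ENNReal.ofReal_add q3.le q4.le,
    ← ENNReal.ofReal_add (by positivity) q5.le, ENNReal.ofReal_le_ofReal_iff hc0,
    ENNReal.ofReal_eq_ofReal_iff (by positivity) hc0]
  have key : cR s (X' q.1) q.2.1 (Z' q.2.2) - (vA q.1 + (2 - 2 * s * ‖q.2.1‖ ^ 2) + vC q.2.2) =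
      FF s e (X' q.1) q.2.1 (Z' q.2.2) - FF s e (X' q.2.2) q.2.2 (Z' q.2.2) := by
    simp only [vA, vC]
    conv => enter [2, 1]; unfold FF
    ring
  by_cases h : q.1 = q.2.1 ∧ q.2.1 = q.2.2
  · have : FF s e (X' q.1) q.2.1 (Z' q.2.2) = FF s e (X' q.2.2) q.2.2 (Z' q.2.2) := by
      rw [h.1, h.2]
    exact ⟨by linarith, fun _ => h, fun _ => by linarith⟩
  · have := q1 h
    exact ⟨by linarith, fun h' => by linarith, fun h' => absurd h' h⟩

theorem good_cases : ∀ i j k : Fin 5, Good i j k →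
    ((i, j, k) = (1, 0, 2) ∨ (i, j, k) = (0, 1, 2) ∨ (i, j, k) = (1, 2, 0) ∨
      (i, j, k) = (0, 2, 1) ∨ (i, j, k) = (2, 1, 0) ∨ (i, j, k) = (2, 0, 1)) ∨
    ((i, j, k) = (3, 0, 4) ∨ (i, j, k) = (0, 3, 4) ∨ (i, j, k) = (3, 4, 0) ∨
      (i, j, k) = (0, 4, 3) ∨ (i, j, k) = (4, 3, 0) ∨ (i, j, k) = (4, 0, 3)) := by decide

theorem base_table {e₁ e₂ : E} (h₁ : ‖e₁‖ = 1) (h₂ : ‖e₂‖ = 1) (h₁₂ : ⟪e₁, e₂⟫ = 0) (i j : Fin 5) :
    ‖(![0, -e₁, e₁, -e₂, e₂] : Fin 5 → E) i - (![0, -e₁, e₁, -e₂, e₂] : Fin 5 → E) j‖ ^ 2 =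
      (!![0, 1, 1, 1, 1; 1, 0, 4, 2, 2; 1, 4, 0, 2, 2; 1, 2, 2, 0, 4; 1, 2, 2, 4, 0] :
        Matrix (Fin 5) (Fin 5) ℝ) i j := by
  have h₂₁ : ⟪e₂, e₁⟫ = 0 := by rw [real_inner_comm]; exact h₁₂
  rw [norm_sub_sq_real]
  fin_cases i <;> fin_cases j <;>
    simp [h₁, h₂, h₁₂, h₂₁] <;> norm_num

theorem base_ne {e₁ e₂ : E} (h₁ : ‖e₁‖ = 1) (h₂ : ‖e₂‖ = 1) (h₁₂ : ⟪e₁, e₂⟫ = 0) {i j : Fin 5}
    (hij : i ≠ j) :
    (![0, -e₁, e₁, -e₂, e₂] : Fin 5 → E) i - (![0, -e₁, e₁, -e₂, e₂] : Fin 5 → E) j ≠ 0 := by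
  intro h
  have := base_table h₁ h₂ h₁₂ i j
  rw [h] at this
  fin_cases i <;> fin_cases j <;> simp at this hij

theorem base_lt {s : ℝ} (hs : 0 < s) {e₁ e₂ : E} (h₁ : ‖e₁‖ = 1) (h₂ : ‖e₂‖ = 1)
    (h₁₂ : ⟪e₁, e₂⟫ = 0) (b : Fin 5 → E) (hb : b = ![0, -e₁, e₁, -e₂, e₂]) (v : Fin 5 → ℝ)
    (hv : v = ![2, (4 : ℝ) ^ (-s / 2) / 2, (4 : ℝ) ^ (-s / 2) / 2, (4 : ℝ) ^ (-s / 2) / 2,
      (4 : ℝ) ^ (-s / 2) / 2]) (i j k : Fin 5) (hg : ¬ Good i j k) :
    ENNReal.ofReal (v i) + ENNReal.ofReal (v j) + ENNReal.ofReal (v k) <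
      tripleCost s (b i, b j, b k) := by
  by_cases hij : i = j
  · subst hij; simp [tripleCost, pairCost_self hs]
  by_cases hik : i = k
  · subst hik; simp [tripleCost, pairCost_self hs]
  by_cases hjk : j = k
  · subst hjk; simp [tripleCost, pairCost_self hs]
  have hβ0 : 0 < (4 : ℝ) ^ (-s / 2) := by positivity
  have hαβ : (4 : ℝ) ^ (-s / 2) < (2 : ℝ) ^ (-s / 2) :=
    Real.rpow_lt_rpow_of_neg (by norm_num) (by norm_num) (by linarith)
  have hv0 : ∀ i, 0 ≤ v i := by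
    intro i; rw [hv]; fin_cases i <;> simp <;> positivity
  have hD : ((b i, b j, b k) : E × E × E) ∈ Dist E := by
    rw [hb]
    exact ⟨base_ne h₁ h₂ h₁₂ hij, base_ne h₁ h₂ h₁₂ hik, base_ne h₁ h₂ h₁₂ hjk⟩
  rw [tripleCost_eq s hD, ← ENNReal.ofReal_add (hv0 _) (hv0 _),
    ← ENNReal.ofReal_add (add_nonneg (hv0 _) (hv0 _)) (hv0 _),
    ENNReal.ofReal_lt_ofReal_iff_of_nonneg (add_nonneg (add_nonneg (hv0 _) (hv0 _)) (hv0 _))]
  simp only [cR, wR, hb, base_table h₁ h₂ h₁₂, hv]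
  generalize -s / 2 = p at *
  fin_cases i <;> fin_cases j <;> fin_cases k <;>
    first
    | exact absurd rfl hij
    | exact absurd rfl hik
    | exact absurd rfl hjk
    | exact absurd (by decide) hg
    | (simp; linarith)

theorem exists_clusters {s : ℝ} (hs : 0 < s) {e₁ e₂ : E} (h₁ : ‖e₁‖ = 1) (h₂ : ‖e₂‖ = 1)
    (h₁₂ : ⟪e₁, e₂⟫ = 0) :
    ∃ (Φ : Fin 5 → OpenPartialHomeomorph E E) (Ψ : Fin 5 → E → E) (u : Fin 5 → E → ℝ≥0∞)
      (r : ℝ), 0 < r ∧ (∀ i, ContDiffOn ℝ ∞ (Φ i).symm (Φ i).target) ∧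
      (∀ i, ∀ x ∈ (Φ i).target, (fderiv ℝ (Φ i).symm x).det ≠ 0) ∧
      (∀ i, Metric.closedBall 0 r ⊆ (Φ i).source) ∧ (∀ i, Measurable (Ψ i)) ∧
      (∀ i, ∀ y ∈ Metric.closedBall 0 r, Ψ i y = Φ i y) ∧
      (∀ i j, ∀ y ∈ Metric.closedBall 0 r, ∀ y' ∈ Metric.closedBall 0 r,
        Ψ i y = Ψ j y' → i = j ∧ y = y') ∧
      (∀ i, Measurable (u i)) ∧ (∀ i, ∀ y ∈ Metric.closedBall 0 r, u i y ≤ ENNReal.ofReal 3) ∧
      (∀ i j k, ∀ y₁ ∈ Metric.closedBall 0 r, ∀ y₂ ∈ Metric.closedBall 0 r,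
        ∀ y₃ ∈ Metric.closedBall 0 r,
        u i y₁ + u j y₂ + u k y₃ ≤ tripleCost s (Ψ i y₁, Ψ j y₂, Ψ k y₃)) ∧
      (∀ i j k, ∀ y₁ ∈ Metric.closedBall 0 r, ∀ y₂ ∈ Metric.closedBall 0 r,
        ∀ y₃ ∈ Metric.closedBall 0 r,
        u i y₁ + u j y₂ + u k y₃ = tripleCost s (Ψ i y₁, Ψ j y₂, Ψ k y₃) →
          Good i j k ∧ y₁ = y₂ ∧ y₂ = y₃) ∧
      (∀ i j k, Good i j k → ∀ y ∈ Metric.closedBall 0 r,
        tripleCost s (Ψ i y, Ψ j y, Ψ k y) = u i y + u j y + u k y) := by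
  have : CompleteSpace E := FiniteDimensional.complete ℝ E
  obtain ⟨X₁, Z₁, X₁', Z₁', vA₁, vC₁, a1, a2, a3, a4, a5, a6, a7, a8, a9, a10, a11, a12, a13, a14,
    a15, a16, a17, a18, a19⟩ := branch_data hs h₁
  obtain ⟨X₂, Z₂, X₂', Z₂', vA₂, vC₂, b1, b2, b3, b4, b5, b6, b7, b8, b9, b10, b11, b12, b13, b14,
    b15, b16, b17, b18, b19⟩ := branch_data hs h₂
  let Φ : Fin 5 → OpenPartialHomeomorph E E := ![OpenPartialHomeomorph.refl E, X₁, Z₁, X₂, Z₂]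
  let Ψ : Fin 5 → E → E := ![id, X₁', Z₁', X₂', Z₂']
  let v : Fin 5 → E → ℝ := ![fun y => 2 - 2 * s * ‖y‖ ^ 2, vA₁, vC₁, vA₂, vC₂]
  let u : Fin 5 → E → ℝ≥0∞ := fun i y => ENNReal.ofReal (v i y)
  have hsrc : ∀ i, (0 : E) ∈ (Φ i).source := by
    intro i; fin_cases i
    exacts [mem_univ _, a1, a2, b1, b2]
  have hΨΦ : ∀ i, ∀ y ∈ (Φ i).source, Ψ i y = Φ i y := by
    intro i; fin_cases i
    exacts [fun _ _ => rfl, a11, a12, b11, b12]
  have hΨc : ∀ i, ContinuousAt (Ψ i) 0 := fun i => ((Φ i).continuousAt (hsrc i)).congr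
    (Filter.mem_of_superset ((Φ i).open_source.mem_nhds (hsrc i)) fun y hy => (hΨΦ i y hy).symm)
  have hvc : ∀ i, ContinuousAt (v i) 0 := by
    intro i; fin_cases i
    exacts [show ContinuousAt (fun y : E => 2 - 2 * s * ‖y‖ ^ 2) 0 by fun_prop, a15, a16, b15, b16]
  have huc : ∀ i, ContinuousAt (u i) 0 := fun i =>
    ENNReal.continuous_ofReal.continuousAt.comp (hvc i)
  have hΨ0 : (fun i => Ψ i 0) = ![0, -e₁, e₁, -e₂, e₂] := by
    funext i; fin_cases i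
    exacts [rfl, a3, a4, b3, b4]
  have hv0 : (fun i => v i 0) = ![2, (4 : ℝ) ^ (-s / 2) / 2, (4 : ℝ) ^ (-s / 2) / 2,
      (4 : ℝ) ^ (-s / 2) / 2, (4 : ℝ) ^ (-s / 2) / 2] := by
    funext i; fin_cases i
    exacts [by simp [v], a17, a18, b17, b18]
  have t1 : Tendsto (fun q : E × E × E => q.1) (𝓝 (0, 0, 0)) (𝓝 0) := continuous_fst.tendsto _
  have t2 : Tendsto (fun q : E × E × E => q.2.1) (𝓝 (0, 0, 0)) (𝓝 0) :=
    continuous_snd.fst.tendsto _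
  have t3 : Tendsto (fun q : E × E × E => q.2.2) (𝓝 (0, 0, 0)) (𝓝 0) :=
    continuous_snd.snd.tendsto _
  have P1 : ∀ᶠ q : E × E × E in 𝓝 (0, 0, 0), ∀ i j k, ¬ Good i j k →
      u i q.1 + u j q.2.1 + u k q.2.2 < tripleCost s (Ψ i q.1, Ψ j q.2.1, Ψ k q.2.2) := by
    simp only [eventually_all]
    intro i j k hg
    refine Tendsto.eventually_lt ((((huc i).tendsto.comp t1).add ((huc j).tendsto.comp t2)).add
      ((huc k).tendsto.comp t3)) (((continuous_tripleCost s).tendsto _).comp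
      (((hΨc i).tendsto.comp t1).prodMk_nhds (((hΨc j).tendsto.comp t2).prodMk_nhds
        ((hΨc k).tendsto.comp t3)))) ?_
    exact base_lt hs h₁ h₂ h₁₂ _ hΨ0 _ hv0 i j k hg
  have P2 : ∀ᶠ q : E × E × E in 𝓝 (0, 0, 0), ∀ i j, i ≠ j → Ψ i q.1 - Ψ j q.2.1 ≠ 0 := by
    simp only [eventually_all]
    intro i j hij
    refine (((hΨc i).tendsto.comp t1).sub ((hΨc j).tendsto.comp t2)).eventually_ne ?_
    have := base_ne h₁ h₂ h₁₂ hij
    rwa [← hΨ0] at this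
  have P3 : ∀ᶠ q : E × E × E in 𝓝 (0, 0, 0), ∀ i, q.1 ∈ (Φ i).source := by
    simp only [eventually_all]
    intro i
    exact t1.eventually ((Φ i).open_source.mem_nhds (hsrc i))
  have P4 : ∀ᶠ q : E × E × E in 𝓝 (0, 0, 0), ∀ i, v i q.1 < 3 := by
    simp only [eventually_all]
    intro i
    refine ((hvc i).tendsto.comp t1).eventually (gt_mem_nhds ?_)
    have h4 : (4 : ℝ) ^ (-s / 2) < 1 :=
      Real.rpow_lt_one_of_one_lt_of_neg (by norm_num) (by linarith)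
    rw [congrFun hv0 i]
    fin_cases i <;> simp <;> linarith
  obtain ⟨ε, hε, hall⟩ := Metric.eventually_nhds_iff_ball.mp
    (P1.and (P2.and (P3.and (P4.and (a19.and b19)))))
  have hall' := fun y₁ (hy₁ : y₁ ∈ Metric.closedBall (0 : E) (ε / 2))
      y₂ (hy₂ : y₂ ∈ Metric.closedBall (0 : E) (ε / 2))
      y₃ (hy₃ : y₃ ∈ Metric.closedBall (0 : E) (ε / 2)) => hall (y₁, y₂, y₃) (by
    rw [Metric.mem_closedBall] at hy₁ hy₂ hy₃
    simp only [Metric.mem_ball, Prod.dist_eq, max_lt_iff]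
    exact ⟨by linarith, by linarith, by linarith⟩)
  set K := Metric.closedBall (0 : E) (ε / 2) with hK
  have hKs : ∀ i, K ⊆ (Φ i).source := fun i y hy => (hall' y hy y hy y hy).2.2.1 i
  let Q : Fin 5 → Fin 5 → Fin 5 → Prop := fun i j k => ∀ y₁ ∈ K, ∀ y₂ ∈ K, ∀ y₃ ∈ K,
    u i y₁ + u j y₂ + u k y₃ ≤ tripleCost s (Ψ i y₁, Ψ j y₂, Ψ k y₃) ∧
      (u i y₁ + u j y₂ + u k y₃ = tripleCost s (Ψ i y₁, Ψ j y₂, Ψ k y₃) ↔ y₁ = y₂ ∧ y₂ = y₃)
  have s12 : ∀ {i j k}, Q i j k → Q j i k := by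
    intro i j k h y₁ h1 y₂ h2 y₃ h3
    have := h y₂ h2 y₁ h1 y₃ h3
    rw [tripleCost_swap12, add_comm (u i y₂)] at this
    refine ⟨this.1, this.2.trans ⟨?_, ?_⟩⟩ <;> rintro ⟨rfl, rfl⟩ <;> exact ⟨rfl, rfl⟩
  have s23 : ∀ {i j k}, Q i j k → Q i k j := by
    intro i j k h y₁ h1 y₂ h2 y₃ h3
    have := h y₁ h1 y₃ h3 y₂ h2
    rw [tripleCost_swap23, add_right_comm] at this
    refine ⟨this.1, this.2.trans ⟨?_, ?_⟩⟩ <;> rintro ⟨rfl, rfl⟩ <;> exact ⟨rfl, rfl⟩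
  have q1 : Q 1 0 2 := fun y₁ h1 y₂ h2 y₃ h3 => (hall' y₁ h1 y₂ h2 y₃ h3).2.2.2.2.1
  have q2 : Q 3 0 4 := fun y₁ h1 y₂ h2 y₃ h3 => (hall' y₁ h1 y₂ h2 y₃ h3).2.2.2.2.2
  have hQ : ∀ i j k, Good i j k → Q i j k := by
    intro i j k hg
    rcases good_cases i j k hg with (h | h | h | h | h | h) | (h | h | h | h | h | h) <;>
      simp only [Prod.mk.injEq] at h <;> obtain ⟨rfl, rfl, rfl⟩ := h
    exacts [q1, s12 q1, s23 q1, s23 (s12 q1), s12 (s23 q1), s12 (s23 (s12 q1)),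
      q2, s12 q2, s23 q2, s23 (s12 q2), s12 (s23 q2), s12 (s23 (s12 q2))]
  refine ⟨Φ, Ψ, u, ε / 2, by positivity, ?_, ?_, hKs, ?_, fun i y hy => hΨΦ i y (hKs i hy), ?_, ?_,
    ?_, ?_, ?_, ?_⟩
  · intro i; fin_cases i
    exacts [contDiffOn_id, a5, a7, b5, b7]
  · intro i; fin_cases i
    · intro x _
      refine det_ne_zero_of_inj fun w hw => ?_
      have : fderiv ℝ (id : E → E) x w = 0 := hw
      simpa using this
    exacts [a6, a8, b6, b8]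
  · intro i; fin_cases i
    exacts [measurable_id, a9, a10, b9, b10]
  · intro i j y hy y' hy' h
    have hij : i = j := by
      by_contra hij
      exact (hall' y hy y' hy' y hy).2.1 i j hij (sub_eq_zero.mpr h)
    subst hij
    rw [hΨΦ i y (hKs i hy), hΨΦ i y' (hKs i hy')] at h
    exact ⟨rfl, (Φ i).injOn (hKs i hy) (hKs i hy') h⟩
  · intro i
    refine Measurable.ennreal_ofReal ?_
    fin_cases i
    exacts [show Measurable (fun y : E => 2 - 2 * s * ‖y‖ ^ 2) by fun_prop, a13, a14, b13, b14]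
  · intro i y hy
    exact ENNReal.ofReal_le_ofReal ((hall' y hy y hy y hy).2.2.2.1 i).le
  · intro i j k y₁ h1 y₂ h2 y₃ h3
    by_cases hg : Good i j k
    · exact (hQ i j k hg y₁ h1 y₂ h2 y₃ h3).1
    · exact ((hall' y₁ h1 y₂ h2 y₃ h3).1 i j k hg).le
  · intro i j k y₁ h1 y₂ h2 y₃ h3 h
    by_cases hg : Good i j k
    · exact ⟨hg, (hQ i j k hg y₁ h1 y₂ h2 y₃ h3).2.mp h⟩
    · exact absurd h ((hall' y₁ h1 y₂ h2 y₃ h3).1 i j k hg).ne
  · intro i j k hg y hy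
    exact ((hQ i j k hg y hy y hy y hy).2.mpr ⟨rfl, rfl⟩).symm

end Crest.Agent.R130
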